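import Mathlib

/-! Chamber systems: cochains are functions of a type set and a chamber. -/

namespace Vale.Agent.P067

variable {ι Ω : Type*} [DecidableEq ι]

/-- A cochain in the chamber language: supported on the type sets of `m` elements and constant on
the classes of the relation of the type set. -/
def IsCochain (R : Finset ι → Ω → Ω → Prop) (m : ℕ) (f : Finset ι → Ω → ZMod 2) : Prop :=
  (∀ T x, T.card ≠ m → f T x = 0) ∧ ∀ T x y, R T x y → f T x = f T y

/-- Supported on the type sets containing `S`. -/
def Above (S : Finset ι) (f : Finset ι → Ω → ZMod 2) : Prop :=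
  ∀ T x, ¬ S ⊆ T → f T x = 0

/-- The coboundary, pointwise in the chamber. -/
def delta (f : Finset ι → Ω → ZMod 2) : Finset ι → Ω → ZMod 2 :=
  fun T x => ∑ t ∈ T, f (T.erase t) x

/-- Augmented exactness on the type sets of `m` elements. -/
def Acyclic (R : Finset ι → Ω → Ω → Prop) (m : ℕ) : Prop :=
  ∀ f, IsCochain R m f → delta f = 0 → ∃ g, IsCochain R (m - 1) g ∧ delta g = f

/-- The number of pairs (type set, chamber) in the support. -/
noncomputable def mass (f : Finset ι → Ω → ZMod 2) : ℕ :=
  Set.ncard {a : Finset ι × Ω | f a.1 a.2 ≠ 0}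

/-- The left cosets of a family of subgroups as a chamber system. -/
def cosetRel {G : Type*} [Group G] (K : Finset ι → Subgroup G) :
    Finset ι → G → G → Prop :=
  fun T x y => x⁻¹ * y ∈ K T

end Vale.Agent.P067
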