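import Mathlib

/-! The arithmetic group `U` of polynomial matrices which are lower unitriangular at `0`, its
finite subgroups attached to sets of types, and its congruence subgroups. -/

open scoped MatrixGroups
open Matrix Polynomial

namespace Vale.Agent.P067

noncomputable section

/-- Polynomial special linear group. -/
abbrev SLP (ι : Type*) [Fintype ι] [DecidableEq ι] (p : ℕ) : Type _ :=
  Matrix.SpecialLinearGroup ι (ZMod p)[X]

/-- Truncation at the `s`th power of the variable. -/
abbrev Trunc (p s : ℕ) : Type :=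
  (ZMod p)[X] ⧸ Ideal.span {(X : (ZMod p)[X]) ^ s}

/-- Reduction of matrices. -/
def reduceHom (ι : Type*) [Fintype ι] [DecidableEq ι] (p s : ℕ) :
    SLP ι p →* Matrix.SpecialLinearGroup ι (Trunc p s) :=
  Matrix.SpecialLinearGroup.map (Ideal.Quotient.mk _)

/-- The congruence kernel. -/
def congrKer (ι : Type*) [Fintype ι] [DecidableEq ι] (p s : ℕ) : Subgroup (SLP ι p) :=
  (reduceHom ι p s).ker

instance (ι : Type*) [Fintype ι] [DecidableEq ι] (p s : ℕ) : (congrKer ι p s).Normal :=
  MonoidHom.normal_ker _

/-- Lower unitriangular matrices over the prime field. -/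
def lowerUniMonoid (n p : ℕ) : Submonoid (Matrix.SpecialLinearGroup (Fin n) (ZMod p)) where
  carrier := {g | ∀ i j : Fin n, (i < j → g.1 i j = 0) ∧ (i = j → g.1 i j = 1)}
  one_mem' := by
    intro i j
    refine ⟨fun h => ?_, fun h => ?_⟩
    · simp [h.ne]
    · simp [h]
  mul_mem' := by
    intro g h hg hh i j
    rw [Matrix.SpecialLinearGroup.coe_mul, Matrix.mul_apply]
    refine ⟨fun hij => Finset.sum_eq_zero fun l _ => ?_, fun hij => ?_⟩
    · rcases lt_or_ge i l with h1 | h1
      · rw [(hg i l).1 h1, zero_mul]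
      · rw [(hh l j).1 (lt_of_le_of_lt h1 hij), mul_zero]
    · subst hij
      rw [Finset.sum_eq_single i]
      · rw [(hg i i).2 rfl, (hh i i).2 rfl, mul_one]
      · intro l _ hl
        rcases lt_or_gt_of_ne hl with h1 | h1
        · rw [(hh l i).1 h1, mul_zero]
        · rw [(hg i l).1 h1, zero_mul]
      · intro hi
        exact absurd (Finset.mem_univ i) hi

variable (n p : ℕ) [Fact p.Prime]

theorem inv_eq_pow_sub_one {G : Type*} [Group G] {g : G} (h : IsOfFinOrder g) :
    g⁻¹ = g ^ (orderOf g - 1) := by
  refine inv_eq_of_mul_eq_one_left ?_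
  rw [← pow_succ, Nat.sub_add_cancel h.orderOf_pos, pow_orderOf_eq_one]

/-- Lower unitriangular matrices as a subgroup. -/
def lowerUni : Subgroup (Matrix.SpecialLinearGroup (Fin n) (ZMod p)) where
  toSubmonoid := lowerUniMonoid n p
  inv_mem' := by
    intro g hg
    rw [inv_eq_pow_sub_one (isOfFinOrder_of_finite g)]
    exact (lowerUniMonoid n p).pow_mem hg _

/-- The group `U`: polynomial matrices which are lower unitriangular at `0`. -/
def U : Subgroup (SLP (Fin n) p) :=
  (lowerUni n p).comap (Matrix.SpecialLinearGroup.map Polynomial.constantCoeff)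

variable {n p}

/-- The degree condition of the vertex of type `a`. -/
def DegCond (a : Fin n) (g : ↥(U n p)) : Prop :=
  ∀ i j : Fin n, ∀ k : ℕ, (g.1.1 i j).coeff k ≠ 0 →
    k + (if j < a then 1 else 0) ≤ if i < a then 1 else 0

theorem degCond_one (a : Fin n) : DegCond a (1 : ↥(U n p)) := by
  intro i j k h
  rcases eq_or_ne i j with rfl | hij
  · rcases Nat.eq_zero_or_pos k with rfl | hk
    · simp
    · simp [Polynomial.coeff_one, hk.ne'] at h
  · simp [hij] at h

theorem degCond_mul {a : Fin n} {g h : ↥(U n p)} (hg : DegCond a g) (hh : DegCond a h) :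
    DegCond a (g * h) := by
  intro i j k hne
  rw [Subgroup.coe_mul, Matrix.SpecialLinearGroup.coe_mul, Matrix.mul_apply,
    Polynomial.finsetSum_coeff] at hne
  obtain ⟨l, -, hl⟩ := Finset.exists_ne_zero_of_sum_ne_zero hne
  rw [Polynomial.coeff_mul] at hl
  obtain ⟨⟨k1, k2⟩, hk, hkl⟩ := Finset.exists_ne_zero_of_sum_ne_zero hl
  rw [Finset.HasAntidiagonal.mem_antidiagonal] at hk
  have h1 := hg i l k1 (left_ne_zero_of_mul hkl)
  have h2 := hh l j k2 (right_ne_zero_of_mul hkl)
  omega

theorem finite_degCond (a : Fin n) : {g : ↥(U n p) | DegCond a g}.Finite := by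
  refine Set.Finite.of_finite_image
    (f := fun g : ↥(U n p) => fun (i j : Fin n) =>
      ((g.1.1 i j).coeff 0, (g.1.1 i j).coeff 1)) (Set.toFinite _) ?_
  intro g hg h hh hgh
  refine Subtype.ext (Matrix.SpecialLinearGroup.ext (A := g.1) (B := h.1) fun i j => ?_)
  have he := congrFun (congrFun hgh i) j
  refine Polynomial.ext fun k => ?_
  match k with
  | 0 => exact congrArg Prod.fst he
  | 1 => exact congrArg Prod.snd he
  | k + 2 =>
    have key : ∀ x : ↥(U n p), DegCond a x → (x.1.1 i j).coeff (k + 2) = 0 := by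
      intro x hx
      by_contra hne
      have := hx i j (k + 2) hne
      split_ifs at this <;> omega
    rw [key g hg, key h hh]

theorem degCond_inv {a : Fin n} {g : ↥(U n p)} (hg : DegCond a g) : DegCond a g⁻¹ := by
  have hpow : ∀ m : ℕ, DegCond a (g ^ m) := by
    intro m
    induction m with
    | zero => simpa using degCond_one a
    | succ m ih => simpa [pow_succ] using degCond_mul ih hg
  have hfin : (Set.range fun m : ℕ => g ^ m).Finite :=
    (finite_degCond a).subset (by rintro _ ⟨m, rfl⟩; exact hpow m)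
  have hord : IsOfFinOrder g := by
    obtain ⟨m, l, hml, he⟩ : ∃ m l : ℕ, m < l ∧ g ^ m = g ^ l := by
      obtain ⟨m, l, he, hne⟩ : ∃ m l : ℕ, g ^ m = g ^ l ∧ m ≠ l := by
        by_contra hcon
        push Not at hcon
        exact (Set.infinite_range_of_injective fun m l h => hcon m l h) hfin
      rcases lt_or_gt_of_ne hne with h | h
      · exact ⟨m, l, h, he⟩
      · exact ⟨l, m, h, he.symm⟩
    refine isOfFinOrder_iff_pow_eq_one.2 ⟨l - m, by omega, ?_⟩
    have h2 : g ^ m * g ^ (l - m) = g ^ m * 1 := by
      rw [← pow_add, mul_one, Nat.add_sub_cancel' hml.le, he]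
    exact mul_left_cancel h2
  rw [inv_eq_pow_sub_one hord]
  exact hpow _

variable (n p)

/-- The stabiliser in `U` of the standard simplex of a set of types. -/
def K (T : Finset (Fin n)) : Subgroup ↥(U n p) where
  carrier := {g | ∀ a ∈ T, DegCond a g}
  one_mem' := fun a _ => degCond_one a
  mul_mem' := fun hg hh a ha => degCond_mul (hg a ha) (hh a ha)
  inv_mem' := fun hg a ha => degCond_inv (hg a ha)

/-- The congruence subgroup of level `s` inside `U`. -/
def Gam (s : ℕ) : Subgroup ↥(U n p) :=
  (congrKer (Fin n) p s).subgroupOf (U n p)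

instance (s : ℕ) : (Gam n p s).Normal :=
  (inferInstance : (congrKer (Fin n) p s).Normal).subgroupOf _

/-- The chambers of the finite complex of level `s`. -/
abbrev Omega (s : ℕ) : Type := ↥(U n p) ⧸ Gam n p s

/-- The subgroups of the finite group of level `s`. -/
def Kq (s : ℕ) (T : Finset (Fin n)) : Subgroup (Omega n p s) :=
  (K n p T).map (QuotientGroup.mk' (Gam n p s))

end

end Vale.Agent.P067
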