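import Vale.Agent.P067.Defs
import Vale.Agent.P067.Sys
import Vale.Agent.P067.Group

/-! Statements of the modules of the construction of bounded-degree coboundary expanders. -/

namespace Vale.Agent.P067

/-- Two vertices are linked when some facet contains both. -/
def IsConn {n : ℕ} (F : Finset (Finset (Fin n))) : Prop :=
  ∀ v w : Fin n, Relation.ReflTransGen (fun a b => ∃ τ ∈ F, a ∈ τ ∧ b ∈ τ) v w

/-- The answer to the question: in every dimension there are bounded-degree coboundary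
expanders with arbitrarily many vertices. -/
def MainStatement : Prop :=
  ∀ d : ℕ, 1 ≤ d → ∃ D : ℕ, ∃ ε : ℝ, 0 < ε ∧ ∀ N : ℕ, ∃ n ≥ N,
    ∃ F : Finset (Finset (Fin n)),
      IsPure F d ∧ IsConn F ∧ DegreeAtMost F D ∧ IsExpander F d ε

/-- M2: the infinite complex is acyclic below dimension `n - 3`. -/
def ZStatement : Prop :=
  ∀ n : ℕ, ∃ P : ℕ, ∀ p : ℕ, ∀ _ : Fact p.Prime, P ≤ p →
    ∀ m : ℕ, 1 ≤ m → m + 3 ≤ n → Acyclic (cosetRel (K n p)) m

/-- Part A: the finite complexes are acyclic through dimension `d - 1`. -/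
def VanishStatement : Prop :=
  ∀ d : ℕ, ∃ n0 : ℕ, ∀ n : ℕ, n0 ≤ n → ∃ P : ℕ, ∀ p : ℕ, ∀ _ : Fact p.Prime, P ≤ p →
    ∀ s : ℕ, 3 ≤ s → ∀ m : ℕ, 1 ≤ m → m ≤ d → Acyclic (cosetRel (Kq n p s)) m

/-- M3: coboundary expansion of the links, uniformly in the prime. -/
def LinkStatement : Prop :=
  ∀ d : ℕ, ∃ n0 : ℕ, ∀ n : ℕ, n0 ≤ n → ∃ C P : ℕ, ∀ p : ℕ, ∀ _ : Fact p.Prime, P ≤ p →
    ∀ S : Finset (Fin n), S.Nonempty → ∀ m : ℕ, m ≤ d + 1 →
      ∀ h : Finset (Fin n) → ↥(K n p S) → ZMod 2,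
        IsCochain (cosetRel fun T => (K n p T).subgroupOf (K n p S)) m h → Above S h →
        ∃ g : Finset (Fin n) → ↥(K n p S) → ZMod 2,
          IsCochain (cosetRel fun T => (K n p T).subgroupOf (K n p S)) (m - 1) g ∧
          Above S g ∧ mass (h + delta g) ≤ C * mass (delta h)

/-- M4: the spectral gap of the residues of rank two. -/
def RankTwoStatement : Prop :=
  ∀ n : ℕ, 3 ≤ n → ∀ p : ℕ, ∀ _ : Fact p.Prime,
    ∀ S : Finset (Fin n), S.card + 2 = n → ∀ t u : Fin n, t ∉ S → u ∉ S → t ≠ u →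
      ∀ _ : Fintype ↥(K n p S), ∀ f g : ↥(K n p S) → ℝ,
        (∀ x y, x⁻¹ * y ∈ (K n p (insert t S)).subgroupOf (K n p S) → f x = f y) →
        (∀ x y, x⁻¹ * y ∈ (K n p (insert u S)).subgroupOf (K n p S) → g x = g y) →
        ∑ x, f x * g x ≤ (∑ x, f x) * (∑ x, g x) / Fintype.card ↥(K n p S) +
          Real.sqrt (1 / p) * Real.sqrt ((∑ x, f x ^ 2) * ∑ x, g x ^ 2)

end Vale.Agent.P067
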