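import Mathlib

namespace Vale.Agent.P067

open Finset

variable {n : ℕ}

/-- The `i`-dimensional faces of the complex on `Fin n` generated by the facets `F`: the sets of
`i + 1` vertices contained in a facet. -/
def faces (F : Finset (Finset (Fin n))) (i : ℕ) : Finset (Finset (Fin n)) :=
  ((univ : Finset (Fin n)).powersetCard (i + 1)).filter fun σ => ∃ τ ∈ F, σ ⊆ τ

/-- Cochains with values in the field with two elements. -/
abbrev Cochain (F : Finset (Finset (Fin n))) (i : ℕ) : Type := ↥(faces F i) → ZMod 2

/-- The coboundary. -/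
def cobd (F : Finset (Finset (Fin n))) (i : ℕ) :
    Cochain F i →ₗ[ZMod 2] Cochain F (i + 1) where
  toFun f τ := ∑ σ : ↥(faces F i), if σ.1 ⊆ τ.1 then f σ else 0
  map_add' f g := by funext τ; simp [ite_add_zero, sum_add_distrib]
  map_smul' c f := by funext τ; simp [mul_sum]

/-- Coboundaries; in degree zero, the constant functions. -/
def coboundaries (F : Finset (Finset (Fin n))) :
    (i : ℕ) → Submodule (ZMod 2) (Cochain F i)
  | 0 => Submodule.span (ZMod 2) {fun _ => 1}
  | i + 1 => LinearMap.range (cobd F i)

/-- The weight of a face: the probability of getting it by choosing a uniform facet and then a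
uniform face of that facet of the given dimension. -/
noncomputable def weight (F : Finset (Finset (Fin n))) (d : ℕ) (σ : Finset (Fin n)) : ℝ :=
  ((F.filter fun τ => σ ⊆ τ).card : ℝ) / (((d + 1).choose σ.card : ℝ) * (F.card : ℝ))

/-- The weighted norm of a cochain. -/
noncomputable def cnorm (F : Finset (Finset (Fin n))) (d : ℕ) {i : ℕ} (f : Cochain F i) : ℝ :=
  ∑ σ : ↥(faces F i), if f σ = 0 then 0 else weight F d σ.1

/-- The complex generated by `F` is pure of dimension `d` on all the vertices. -/
def IsPure (F : Finset (Finset (Fin n))) (d : ℕ) : Prop :=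
  (∀ τ ∈ F, τ.card = d + 1) ∧ ∀ v : Fin n, ∃ τ ∈ F, v ∈ τ

/-- Every vertex lies in at most `D` facets. -/
def DegreeAtMost (F : Finset (Finset (Fin n))) (D : ℕ) : Prop :=
  ∀ v : Fin n, (F.filter fun τ => v ∈ τ).card ≤ D

/-- Coboundary expansion in all degrees below `d`: the norm of the coboundary is at least `ε`
times the distance to the coboundaries. -/
def IsExpander (F : Finset (Finset (Fin n))) (d : ℕ) (ε : ℝ) : Prop :=
  ∀ i < d, ∀ f : Cochain F i, ∃ b ∈ coboundaries F i,
    ε * cnorm F d (f + b) ≤ cnorm F d (cobd F i f)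

/-- The dimension of the top cohomology. -/
noncomputable def topBetti (F : Finset (Finset (Fin n))) (d : ℕ) : ℕ :=
  Module.finrank (ZMod 2) (Cochain F d ⧸ coboundaries F d)

end Vale.Agent.P067
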