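import Mathlib
import Vale.Agent.P067.Defs

namespace Vale.Agent.P067

open Finset

variable {n : ℕ} {F : Finset (Finset (Fin n))} {d D i : ℕ}

lemma mem_faces {σ : Finset (Fin n)} :
    σ ∈ faces F i ↔ σ.card = i + 1 ∧ ∃ τ ∈ F, σ ⊆ τ := by
  simp [faces, mem_powersetCard]

/-- A set of vertices together with all vertices sharing a facet with it. -/
def nb (F : Finset (Finset (Fin n))) (U : Finset (Fin n)) : Finset (Fin n) :=
  U ∪ (F.filter fun τ => ∃ v ∈ U, v ∈ τ).biUnion id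

/-- The `j`-neighbourhood. -/
def ball (F : Finset (Finset (Fin n))) (U : Finset (Fin n)) : ℕ → Finset (Fin n)
  | 0 => U
  | j + 1 => nb F (ball F U j)

/-- Equality or membership of a common facet. -/
def Adj (F : Finset (Finset (Fin n))) (u v : Fin n) : Prop :=
  u = v ∨ ∃ τ ∈ F, u ∈ τ ∧ v ∈ τ

lemma adj_symm {u v : Fin n} (h : Adj F u v) : Adj F v u := by
  rcases h with h | ⟨τ, hτ, hu, hv⟩
  · exact Or.inl h.symm
  · exact Or.inr ⟨τ, hτ, hv, hu⟩

lemma adj_of_face {σ : Finset (Fin n)} (hσ : σ ∈ faces F i) {u v : Fin n} (hu : u ∈ σ)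
    (hv : v ∈ σ) : Adj F u v := by
  obtain ⟨-, τ, hτ, hs⟩ := mem_faces.1 hσ
  exact Or.inr ⟨τ, hτ, hs hu, hs hv⟩

lemma mem_nb {U : Finset (Fin n)} {w : Fin n} : w ∈ nb F U ↔ ∃ v ∈ U, Adj F v w := by
  simp only [nb, mem_union, mem_biUnion, mem_filter, id, Adj]
  constructor
  · rintro (h | ⟨τ, ⟨hτ, v, hv, hvτ⟩, hw⟩)
    · exact ⟨w, h, Or.inl rfl⟩
    · exact ⟨v, hv, Or.inr ⟨τ, hτ, hvτ, hw⟩⟩
  · rintro ⟨v, hv, h | ⟨τ, hτ, hvτ, hw⟩⟩
    · exact Or.inl (h ▸ hv)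
    · exact Or.inr ⟨τ, ⟨hτ, v, hv, hvτ⟩, hw⟩

lemma subset_nb (U : Finset (Fin n)) : U ⊆ nb F U := subset_union_left

lemma nb_mono {U U' : Finset (Fin n)} (h : U ⊆ U') : nb F U ⊆ nb F U' := fun w hw => by
  obtain ⟨v, hv, ha⟩ := mem_nb.1 hw
  exact mem_nb.2 ⟨v, h hv, ha⟩

lemma face_subset_nb {σ U : Finset (Fin n)} (hσ : σ ∈ faces F i) {v : Fin n} (hv : v ∈ σ)
    (hU : v ∈ U) : σ ⊆ nb F U := fun _ hw => mem_nb.2 ⟨v, hU, adj_of_face hσ hv hw⟩

lemma ball_mono_set {U U' : Finset (Fin n)} (h : U ⊆ U') :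
    ∀ j, ball F U j ⊆ ball F U' j
  | 0 => h
  | j + 1 => nb_mono (ball_mono_set h j)

lemma ball_add (U : Finset (Fin n)) (a : ℕ) :
    ∀ b, ball F (ball F U a) b = ball F U (a + b)
  | 0 => rfl
  | b + 1 => by
    show nb F (ball F (ball F U a) b) = ball F U ((a + b) + 1)
    rw [ball_add U a b]; rfl

lemma ball_mono_rad (U : Finset (Fin n)) {a b : ℕ} (h : a ≤ b) : ball F U a ⊆ ball F U b := by
  induction h with
  | refl => exact subset_rfl
  | step _ ih => exact ih.trans (subset_nb _)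

lemma subset_ball (U : Finset (Fin n)) (j : ℕ) : U ⊆ ball F U j :=
  ball_mono_rad U (Nat.zero_le j)

lemma mem_ball_iff {U : Finset (Fin n)} {w : Fin n} :
    ∀ {j}, w ∈ ball F U j ↔ ∃ v ∈ U, w ∈ ball F {v} j
  | 0 => by simp [ball]
  | j + 1 => by
    simp only [ball, mem_nb, mem_ball_iff (U := U) (j := j)]
    constructor
    · rintro ⟨x, ⟨v, hv, hx⟩, ha⟩; exact ⟨v, hv, x, hx, ha⟩
    · rintro ⟨v, hv, x, hx, ha⟩; exact ⟨x, ⟨v, hv, hx⟩, ha⟩

lemma ball_triangle {u v w : Fin n} {a b : ℕ} (h1 : v ∈ ball F {u} a) (h2 : w ∈ ball F {v} b) :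
    w ∈ ball F {u} (a + b) := by
  rw [← ball_add]
  exact ball_mono_set (singleton_subset_iff.2 h1) b h2

lemma adj_ball {u v : Fin n} (h : Adj F u v) : v ∈ ball F {u} 1 :=
  mem_nb.2 ⟨u, mem_singleton_self u, h⟩

lemma ball_symm {u : Fin n} :
    ∀ {j} {v : Fin n}, v ∈ ball F {u} j → u ∈ ball F {v} j
  | 0, v, h => by simp only [ball, mem_singleton] at h; simp [ball, h]
  | j + 1, v, h => by
    obtain ⟨x, hx, ha⟩ := mem_nb.1 (show v ∈ nb F (ball F {u} j) from h)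
    simpa [add_comm] using ball_triangle (adj_ball (adj_symm ha)) (ball_symm hx)

variable (hp : IsPure F d) (hD : DegreeAtMost F D)
include hp hD

lemma card_nb_le (U : Finset (Fin n)) : (nb F U).card ≤ ((d + 1) * D + 1) * U.card := by
  have h1 : (F.filter fun τ => ∃ v ∈ U, v ∈ τ).card ≤ D * U.card := by
    have : (F.filter fun τ => ∃ v ∈ U, v ∈ τ) ⊆ U.biUnion fun v => F.filter fun τ => v ∈ τ := by
      intro τ hτ
      obtain ⟨hτ, v, hv, hvτ⟩ := mem_filter.1 hτ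
      exact mem_biUnion.2 ⟨v, hv, mem_filter.2 ⟨hτ, hvτ⟩⟩
    refine (card_le_card this).trans ?_
    rw [mul_comm]
    exact card_biUnion_le_card_mul _ _ _ fun v _ => hD v
  have h2 : ((F.filter fun τ => ∃ v ∈ U, v ∈ τ).biUnion id).card
      ≤ (F.filter fun τ => ∃ v ∈ U, v ∈ τ).card * (d + 1) :=
    card_biUnion_le_card_mul _ _ _ fun τ hτ => le_of_eq (hp.1 τ (mem_filter.1 hτ).1)
  refine (card_union_le _ _).trans ?_
  nlinarith

lemma card_ball_le (U : Finset (Fin n)) :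
    ∀ j, (ball F U j).card ≤ ((d + 1) * D + 1) ^ j * U.card
  | 0 => by simp [ball]
  | j + 1 => by
    refine (card_nb_le hp hD _).trans ?_
    rw [pow_succ, mul_comm _ ((d + 1) * D + 1), mul_assoc]
    exact Nat.mul_le_mul_left _ (card_ball_le U j)

/-- Faces of one dimension through a vertex. -/
lemma card_faces_at (v : Fin n) : ((faces F i).filter fun σ => v ∈ σ).card ≤ D * 2 ^ (d + 1) := by
  have : ((faces F i).filter fun σ => v ∈ σ)
      ⊆ (F.filter fun τ => v ∈ τ).biUnion Finset.powerset := by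
    intro σ hσ
    obtain ⟨h, hv⟩ := mem_filter.1 hσ
    obtain ⟨-, τ, hτ, hs⟩ := mem_faces.1 h
    exact mem_biUnion.2 ⟨τ, mem_filter.2 ⟨hτ, hs hv⟩, mem_powerset.2 hs⟩
  refine (card_le_card this).trans ((card_biUnion_le_card_mul _ _ (2 ^ (d + 1)) fun τ hτ =>
    le_of_eq ?_).trans (Nat.mul_le_mul_right _ (hD v)))
  rw [card_powerset, hp.1 τ (mem_filter.1 hτ).1]

lemma card_faces_in (U : Finset (Fin n)) :
    ((faces F i).filter fun σ => σ ⊆ U).card ≤ U.card * (D * 2 ^ (d + 1)) := by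
  have : ((faces F i).filter fun σ => σ ⊆ U)
      ⊆ U.biUnion fun v => (faces F i).filter fun σ => v ∈ σ := by
    intro σ hσ
    obtain ⟨h, hs⟩ := mem_filter.1 hσ
    obtain ⟨v, hv⟩ := card_pos.1 ((mem_faces.1 h).1 ▸ Nat.succ_pos i : 0 < σ.card)
    exact mem_biUnion.2 ⟨v, hs hv, mem_filter.2 ⟨h, hv⟩⟩
  exact (card_le_card this).trans (card_biUnion_le_card_mul _ _ _ fun v _ => card_faces_at hp hD v)

omit hp hD

/-- The support of a cochain. -/
def supp (f : Cochain F i) : Finset ↥(faces F i) := univ.filter fun σ => f σ ≠ 0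

/-- The vertices of the support. -/
def verts (f : Cochain F i) : Finset (Fin n) := (supp f).biUnion fun σ => σ.1

lemma mem_supp {f : Cochain F i} {σ} : σ ∈ supp f ↔ f σ ≠ 0 := by simp [supp]

lemma zmod2 (a : ZMod 2) : a = 0 ∨ a = 1 := by revert a; decide

lemma zmod2_ne {a : ZMod 2} : a ≠ 0 ↔ a = 1 := by revert a; decide

lemma add_self_cochain (f : Cochain F i) : f + f = 0 := by
  funext σ; exact CharTwo.add_self_eq_zero _

lemma supp_add_le (f g : Cochain F i) : (supp (f + g)).card ≤ (supp f).card + (supp g).card := by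
  refine (card_le_card fun σ hσ => ?_).trans (card_union_le _ _)
  simp only [mem_union, mem_supp, Pi.add_apply] at *
  by_contra h
  push Not at h
  simp [h.1, h.2] at hσ

lemma verts_subset {f : Cochain F i} {U : Finset (Fin n)} :
    verts f ⊆ U ↔ ∀ σ, f σ ≠ 0 → σ.1 ⊆ U := by
  simp [verts, biUnion_subset, mem_supp]

include hp hD

lemma supp_card_le {f : Cochain F i} {U : Finset (Fin n)} (h : verts f ⊆ U) :
    (supp f).card ≤ U.card * (D * 2 ^ (d + 1)) := by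
  refine le_trans ?_ (card_faces_in (i := i) hp hD U)
  refine card_le_card_of_injOn Subtype.val (fun σ hσ => ?_) Subtype.val_injective.injOn
  exact mem_filter.2 ⟨σ.2, verts_subset.1 h σ (mem_supp.1 hσ)⟩

lemma weight_pos_num {σ : Finset (Fin n)} (hσ : σ ∈ faces F i) :
    1 ≤ (F.filter fun τ => σ ⊆ τ).card ∧ (F.filter fun τ => σ ⊆ τ).card ≤ D := by
  obtain ⟨hc, τ, hτ, hs⟩ := mem_faces.1 hσ
  obtain ⟨v, hv⟩ := card_pos.1 (hc ▸ Nat.succ_pos i : 0 < σ.card)
  refine ⟨card_pos.2 ⟨τ, mem_filter.2 ⟨hτ, hs⟩⟩, le_trans (card_le_card ?_) (hD v)⟩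
  intro t ht
  exact mem_filter.2 ⟨(mem_filter.1 ht).1, (mem_filter.1 ht).2 hv⟩

lemma cnorm_lower (hi : i ≤ d) (hF : 0 < F.card) (f : Cochain F i) :
    ((supp f).card : ℝ) / ((2 : ℝ) ^ (d + 1) * F.card) ≤ cnorm F d f := by
  have e : cnorm F d f = ∑ σ ∈ supp f, weight F d σ.1 := by
    rw [cnorm, supp, sum_filter]; exact sum_congr rfl fun σ _ => (ite_not _ _ _).symm
  rw [e, div_eq_mul_one_div, ← nsmul_eq_mul, ← sum_const]
  refine sum_le_sum fun σ _ => ?_
  have hc : σ.1.card = i + 1 := (mem_faces.1 σ.2).1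
  have hF' : (0 : ℝ) < F.card := by exact_mod_cast hF
  have h1 : (1 : ℝ) ≤ ((F.filter fun τ => σ.1 ⊆ τ).card : ℝ) := by
    exact_mod_cast (weight_pos_num hp hD σ.2).1
  have h2 : (((d + 1).choose (i + 1) : ℕ) : ℝ) ≤ (2 : ℝ) ^ (d + 1) := by
    exact_mod_cast Nat.choose_le_two_pow (d + 1) (i + 1)
  have h3 : (0 : ℝ) < ((d + 1).choose (i + 1) : ℕ) := by
    exact_mod_cast Nat.choose_pos (by omega)
  rw [weight, hc]
  exact (one_div_le_one_div_of_le (mul_pos h3 hF') (mul_le_mul_of_nonneg_right h2 hF'.le)).trans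
    (div_le_div_of_nonneg_right h1 (by positivity))

lemma cnorm_upper (hi : i ≤ d) (hF : 0 < F.card) (f : Cochain F i) :
    cnorm F d f ≤ ((supp f).card : ℝ) * D / F.card := by
  have e : cnorm F d f = ∑ σ ∈ supp f, weight F d σ.1 := by
    rw [cnorm, supp, sum_filter]; exact sum_congr rfl fun σ _ => (ite_not _ _ _).symm
  rw [e, mul_div_assoc, ← nsmul_eq_mul, ← sum_const]
  refine sum_le_sum fun σ _ => ?_
  have hc : σ.1.card = i + 1 := (mem_faces.1 σ.2).1
  have hF' : (0 : ℝ) < F.card := by exact_mod_cast hF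
  have h1 : ((F.filter fun τ => σ.1 ⊆ τ).card : ℝ) ≤ D := by
    exact_mod_cast (weight_pos_num hp hD σ.2).2
  have h3 : (1 : ℝ) ≤ ((d + 1).choose (i + 1) : ℕ) := by
    exact_mod_cast Nat.choose_pos (show i + 1 ≤ d + 1 by omega)
  rw [weight, hc]
  refine (div_le_div_of_nonneg_right h1 (by positivity)).trans ?_
  exact div_le_div_of_nonneg_left (Nat.cast_nonneg D) hF' (le_mul_of_one_le_left hF'.le h3)

/-- Expansion in terms of support sizes. -/
lemma expand {ε : ℝ} {A : ℕ} (hε : 0 < ε) (hA : (2 : ℝ) ^ (d + 1) * D ≤ ε * A)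
    (hx : IsExpander F d ε) (hF : 0 < F.card) (hi : i < d) (f : Cochain F i) :
    ∃ b ∈ coboundaries F i, (supp (f + b)).card ≤ A * (supp (cobd F i f)).card := by
  obtain ⟨b, hb, h⟩ := hx i hi f
  refine ⟨b, hb, ?_⟩
  have h1 := (mul_le_mul_of_nonneg_left (cnorm_lower hp hD hi.le hF (f + b)) hε.le).trans
    (h.trans (cnorm_upper hp hD (Nat.succ_le_of_lt hi) hF _))
  have hF' : (0 : ℝ) < F.card := by exact_mod_cast hF
  rw [mul_div_assoc', div_le_div_iff₀ (by positivity) hF', ← mul_assoc _ _ (F.card : ℝ)] at h1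
  have h2 : ε * (supp (f + b)).card
      ≤ ((supp (cobd F i f)).card : ℝ) * D * (2 : ℝ) ^ (d + 1) := le_of_mul_le_mul_right h1 hF'
  have h3 : ε * ((supp (f + b)).card : ℝ) ≤ ε * ((A : ℝ) * (supp (cobd F i f)).card) := by
    nlinarith [mul_le_mul_of_nonneg_right hA
      (Nat.cast_nonneg (supp (cobd F i f)).card : (0 : ℝ) ≤ _)]
  exact_mod_cast le_of_mul_le_mul_left h3 hε

lemma exact_of_expander {ε : ℝ} (hε : 0 < ε) (hx : IsExpander F d ε) (hF : 0 < F.card) (hi : i < d)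
    (f : Cochain F i) (hf : cobd F i f = 0) : f ∈ coboundaries F i := by
  obtain ⟨b, hb, h⟩ := expand (A := ⌈(2 : ℝ) ^ (d + 1) * D / ε⌉₊) hp hD hε (by
    rw [← div_le_iff₀' hε]; exact Nat.le_ceil _) hx hF hi f
  have h0 : supp (cobd F i f) = ∅ := by rw [hf]; simp [supp]
  rw [h0, card_empty, mul_zero, Nat.le_zero, card_eq_zero] at h
  have : f + b = 0 := by
    funext σ; by_contra hc
    exact notMem_empty σ (h ▸ mem_supp.2 hc)
  rw [eq_neg_of_add_eq_zero_left this]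
  exact Submodule.neg_mem _ hb

end Vale.Agent.P067
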