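import Mathlib
import Vale.Agent.P067.Basic

namespace Vale.Agent.P067

open Finset

variable {n : ℕ} {F : Finset (Finset (Fin n))} {d D i : ℕ}

lemma between_card {ρ τ : Finset (Fin n)} (h : ρ ⊆ τ) (hρ : ρ.card = i + 1)
    (hτ : τ.card = i + 1 + 2) :
    ((τ.powersetCard (i + 2)).filter fun σ => ρ ⊆ σ).card = 2 := by
  have e : ((τ.powersetCard (i + 2)).filter fun σ => ρ ⊆ σ)
      = (τ \ ρ).image fun x => insert x ρ := by
    ext σ
    simp only [mem_filter, mem_powersetCard, mem_image, mem_sdiff]
    constructor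
    · rintro ⟨⟨hs, hc⟩, hr⟩
      have hd : (σ \ ρ).card = 1 := by rw [card_sdiff_of_subset hr]; omega
      obtain ⟨x, hx⟩ := card_eq_one.1 hd
      have hx' : x ∈ σ \ ρ := hx ▸ mem_singleton_self x
      refine ⟨x, ⟨hs (mem_sdiff.1 hx').1, (mem_sdiff.1 hx').2⟩, ?_⟩
      rw [← singleton_union, ← hx, sdiff_union_of_subset hr]
    · rintro ⟨x, ⟨hxτ, hxρ⟩, rfl⟩
      exact ⟨⟨insert_subset hxτ h, by rw [card_insert_of_notMem hxρ, hρ]⟩, subset_insert x ρ⟩
  rw [e, card_image_of_injOn, card_sdiff_of_subset h]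
  · omega
  · intro x hx y hy hxy
    have hx' := (mem_sdiff.1 hx).2
    have : x ∈ insert y ρ := by rw [← show insert x ρ = insert y ρ from hxy]; exact mem_insert_self x ρ
    rcases mem_insert.1 this with h | h
    · exact h
    · exact absurd h hx'

lemma face_of_subset {τ σ : Finset (Fin n)} {j k : ℕ} (hτ : τ ∈ faces F j) (h : σ ⊆ τ)
    (hc : σ.card = k + 1) : σ ∈ faces F k := by
  obtain ⟨-, ω, hω, hs⟩ := mem_faces.1 hτ
  exact mem_faces.2 ⟨hc, ω, hω, h.trans hs⟩

lemma cobd_cobd (g : Cochain F i) : cobd F (i + 1) (cobd F i g) = 0 := by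
  funext τ
  show (∑ σ : ↥(faces F (i + 1)), if σ.1 ⊆ τ.1 then
    ∑ ρ : ↥(faces F i), (if ρ.1 ⊆ σ.1 then g ρ else 0) else 0) = (0 : ZMod 2)
  simp only [← sum_filter]
  rw [sum_comm' (t' := (univ : Finset ↥(faces F i)).filter fun ρ => ρ.1 ⊆ τ.1)
    (s' := fun ρ => (univ : Finset ↥(faces F (i + 1))).filter fun σ => ρ.1 ⊆ σ.1 ∧ σ.1 ⊆ τ.1)]
  · refine sum_eq_zero fun ρ hρ => ?_
    rw [sum_const, nsmul_eq_mul]
    have hc : ((univ : Finset ↥(faces F (i + 1))).filter fun σ => ρ.1 ⊆ σ.1 ∧ σ.1 ⊆ τ.1).card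
        = 2 := by
      have hρτ := (mem_filter.1 hρ).2
      rw [← between_card hρτ (mem_faces.1 ρ.2).1 (show τ.1.card = i + 1 + 2 from
        (mem_faces.1 τ.2).1.trans (by omega))]
      refine card_bij (fun σ _ => σ.1) (fun σ hσ => ?_) (fun σ _ σ' _ h => Subtype.ext h)
        (fun σ hσ => ?_)
      · obtain ⟨-, h1, h2⟩ := mem_filter.1 hσ
        exact mem_filter.2 ⟨mem_powersetCard.2 ⟨h2, (mem_faces.1 σ.2).1⟩, h1⟩
      · obtain ⟨hσ, h1⟩ := mem_filter.1 hσ
        obtain ⟨h2, h3⟩ := mem_powersetCard.1 hσ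
        exact ⟨⟨σ, face_of_subset τ.2 h2 h3⟩, mem_filter.2 ⟨mem_univ _, h1, h2⟩, rfl⟩
    rw [hc]
    simp [show (2 : ZMod 2) = 0 from rfl]
  · intro σ ρ
    simp only [mem_filter, mem_univ, true_and]
    exact ⟨fun ⟨h1, h2⟩ => ⟨⟨h2, h1⟩, h2.trans h1⟩, fun ⟨⟨h2, h1⟩, _⟩ => ⟨h1, h2⟩⟩

lemma cobd_coboundary : ∀ {i} {b : Cochain F i}, b ∈ coboundaries F i → cobd F i b = 0
  | 0, b, hb => by
    obtain ⟨c, rfl⟩ := Submodule.mem_span_singleton.1 hb
    rw [map_smul]
    suffices cobd F 0 (fun _ => (1 : ZMod 2)) = 0 by rw [this, smul_zero]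
    funext τ
    show (∑ σ : ↥(faces F 0), if σ.1 ⊆ τ.1 then (1 : ZMod 2) else 0) = 0
    rw [← sum_filter, sum_const, nsmul_eq_mul, mul_one]
    have : ((univ : Finset ↥(faces F 0)).filter fun σ => σ.1 ⊆ τ.1).card = 2 := by
      rw [show 2 = (τ.1.powersetCard 1).card by
        rw [card_powersetCard, (mem_faces.1 τ.2).1]; rfl]
      refine card_bij (fun σ _ => σ.1) (fun σ hσ => mem_powersetCard.2
        ⟨(mem_filter.1 hσ).2, (mem_faces.1 σ.2).1⟩) (fun σ _ σ' _ h => Subtype.ext h)
        (fun σ hσ => ?_)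
      obtain ⟨h2, h3⟩ := mem_powersetCard.1 hσ
      exact ⟨⟨σ, face_of_subset τ.2 h2 h3⟩, mem_filter.2 ⟨mem_univ _, h2⟩, rfl⟩
    rw [this]; rfl
  | j + 1, b, hb => by
    obtain ⟨c, rfl⟩ := hb
    exact cobd_cobd c

/-- A projection onto the coboundaries which is local outside a neighbourhood of `S`. -/
def Loc (F : Finset (Finset (Fin n))) (S : Finset (Fin n)) (i R : ℕ) : Prop :=
  ∃ Q : Cochain F i →ₗ[ZMod 2] Cochain F i,
    (∀ x, x + Q x ∈ coboundaries F i) ∧ (∀ b ∈ coboundaries F i, Q b = 0) ∧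
    ∀ x, verts (Q x) ⊆ ball F (S ∪ verts (cobd F i x)) R

lemma Loc.mono {S : Finset (Fin n)} {R R' : ℕ} (h : Loc F S i R) (hR : R ≤ R') : Loc F S i R' := by
  obtain ⟨Q, h1, h2, h3⟩ := h
  exact ⟨Q, h1, h2, fun x => (h3 x).trans (ball_mono_rad _ hR)⟩

/-- Top dimension: a set of facets complementary to the coboundaries. -/
lemma exists_top (d : ℕ) : ∃ T : Finset ↥(faces F d), T.card = topBetti F d ∧
    ∀ S : Finset (Fin n), (∀ t ∈ T, t.1 ⊆ S) → Loc F S d 0 := by
  classical
  set B := coboundaries F d with hB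
  let e : ↥(faces F d) → Cochain F d ⧸ B := fun t => Submodule.mkQ B (Pi.single t 1)
  obtain ⟨b, hb, hspan, hli⟩ := exists_linearIndependent (ZMod 2) (Set.range e)
  have htop : Submodule.span (ZMod 2) b = ⊤ := by
    rw [hspan, eq_top_iff]
    rintro y -
    obtain ⟨x, rfl⟩ := Submodule.mkQ_surjective B y
    rw [pi_eq_sum_univ x, map_sum]
    refine Submodule.sum_mem _ fun t _ => ?_
    rw [map_smul]
    refine Submodule.smul_mem _ _ (Submodule.subset_span ⟨t, ?_⟩)
    simp only [e]; congr 1; funext s; simp [Pi.single_apply, eq_comm]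
  have := Fintype.ofFinite ↥b
  choose tt htt using fun y : ↥b => hb y.2
  have htt' : Function.Injective tt := fun y z h => Subtype.ext (by rw [← htt y, ← htt z, h])
  let bas : Module.Basis ↥b (ZMod 2) (Cochain F d ⧸ B) :=
    Module.Basis.mk hli (by rw [Subtype.range_coe, htop])
  refine ⟨univ.image tt, ?_, fun S hS => ?_⟩
  · rw [card_image_of_injective _ htt', card_univ, topBetti, Module.finrank_eq_card_basis bas]
  let lift : Cochain F d ⧸ B →ₗ[ZMod 2] Cochain F d :=
    bas.constr (ZMod 2) fun y => Pi.single (tt y) 1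
  have hl : (Submodule.mkQ B).comp lift = LinearMap.id := bas.ext fun y => by
    simp only [LinearMap.comp_apply, lift, Module.Basis.constr_basis, LinearMap.id_coe, id_eq]
    rw [show bas y = (y : Cochain F d ⧸ B) from Module.Basis.mk_apply hli _ y, ← htt y]
  refine ⟨lift.comp (Submodule.mkQ B), fun x => ?_, fun x hx => ?_, fun x => ?_⟩
  · rw [← Submodule.Quotient.mk_eq_zero, ← Submodule.mkQ_apply, map_add, LinearMap.comp_apply,
      show (Submodule.mkQ B) (lift (Submodule.mkQ B x)) = Submodule.mkQ B x from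
        LinearMap.congr_fun hl _]
    rw [← map_add, add_self_cochain, map_zero]
  · rw [LinearMap.comp_apply, Submodule.mkQ_apply, (Submodule.Quotient.mk_eq_zero B).2 hx, map_zero]
  · refine verts_subset.2 fun σ hσ => subset_trans ?_ subset_union_left
    by_contra hc
    apply hσ
    rw [LinearMap.comp_apply, show lift = bas.constr (ZMod 2) fun y => Pi.single (tt y) 1 from rfl,
      Module.Basis.constr_apply_fintype, Finset.sum_apply]
    refine sum_eq_zero fun y _ => ?_
    rw [Pi.smul_apply, Pi.single_apply, if_neg, smul_zero]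
    rintro rfl
    exact hc (hS _ (mem_image_of_mem tt (mem_univ y)))

variable (hp : IsPure F d) (hD : DegreeAtMost F D)
include hp hD

/-- One step of the downward induction. -/
lemma loc_step {ε : ℝ} {A : ℕ} (hε : 0 < ε) (hA : (2 : ℝ) ^ (d + 1) * D ≤ ε * A)
    (hx : IsExpander F d ε) (hF : 0 < F.card) (hi : i < d) {S : Finset (Fin n)} {R L : ℕ}
    (hL : A * (D * 2 ^ (d + 1)) * ((d + 1) * D + 1) ^ (R + 1) * (S.card + (d + 1)) < 2 ^ L)
    (h : Loc F S (i + 1) R) :
    Loc F S i (R + 1 + (A * (D * 2 ^ (d + 1)) + 1) * L) := by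
  classical
  obtain ⟨Q, hQ1, hQ2, hQ3⟩ := h
  set k := A * (D * 2 ^ (d + 1)) + 1 with hk
  have key : ∀ t : ↥(faces F (i + 1)), ∃ f : Cochain F i,
      cobd F i f = Pi.single t 1 + Q (Pi.single t 1) ∧
      verts f ⊆ ball F (S ∪ t.1) (R + 1 + k * L) := by
    intro t
    set y := Pi.single t (1 : ZMod 2) + Q (Pi.single t 1) with hy
    set U := ball F (S ∪ t.1) (R + 1) with hU
    have hyU : verts y ⊆ U := by
      have ht : verts (cobd F (i + 1) (Pi.single t (1 : ZMod 2))) ⊆ nb F t.1 := by
        refine verts_subset.2 fun τ hτ => ?_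
        have : t.1 ⊆ τ.1 := by
          by_contra hc
          apply hτ
          show (∑ σ : ↥(faces F (i + 1)), if σ.1 ⊆ τ.1 then
            (Pi.single t (1 : ZMod 2) : Cochain F (i + 1)) σ else 0) = (0 : ZMod 2)
          refine sum_eq_zero fun σ _ => ?_
          split_ifs with hs
          · rw [Pi.single_apply, if_neg]; rintro rfl; exact hc hs
          · rfl
        obtain ⟨v, hv⟩ := card_pos.1 ((mem_faces.1 t.2).1 ▸ Nat.succ_pos _ : 0 < t.1.card)
        exact face_subset_nb τ.2 (this hv) hv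
      have h1 : verts (Q (Pi.single t 1)) ⊆ U := by
        refine (hQ3 _).trans ?_
        rw [hU, show R + 1 = 1 + R by omega, ← ball_add]
        refine ball_mono_set (union_subset ?_ ?_) R
        · exact subset_union_left.trans (subset_nb _)
        · exact ht.trans (nb_mono subset_union_right)
      refine verts_subset.2 fun σ hσ => ?_
      by_cases he : σ = t
      · subst he; exact subset_union_right.trans (subset_ball _ _)
      · refine verts_subset.1 h1 σ ?_
        intro h0; apply hσ
        rw [hy, Pi.add_apply, Pi.single_apply, if_neg he, h0, add_zero]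
    obtain ⟨f₀, hf₀⟩ := hQ1 (Pi.single t 1)
    obtain ⟨f, hf, hmin⟩ := exists_min_image
      ((univ : Finset (Cochain F i)).filter fun f => cobd F i f = y) (fun f => (supp f).card)
      ⟨f₀, mem_filter.2 ⟨mem_univ _, hf₀⟩⟩
    replace hf := (mem_filter.1 hf).2
    refine ⟨f, hf, ?_⟩
    -- the part of f outside the j-neighbourhood
    let g : ℕ → Cochain F i := fun j σ => if σ.1 ⊆ ball F U j then 0 else f σ
    let a : ℕ → ℕ := fun j => (supp (g j)).card
    have hmin' : ∀ b ∈ coboundaries F i, (supp f).card ≤ (supp (f + b)).card := fun b hb =>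
      hmin _ (mem_filter.2 ⟨mem_univ _, by
        rw [map_add, hf]
        rw [cobd_coboundary hb, add_zero]⟩)
    have hsplit : ∀ j, (supp f).card = (supp (f + g j)).card + a j := by
      intro j
      rw [← card_union_of_disjoint]
      · congr 1
        ext σ
        simp only [mem_union, mem_supp, g, Pi.add_apply]
        split_ifs <;> simp [CharTwo.add_self_eq_zero]
      · rw [disjoint_left]
        intro σ h1 h2
        simp only [mem_supp, g, Pi.add_apply] at h1 h2
        split_ifs at h1 h2 with hs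
        · exact h2 rfl
        · exact h1 (CharTwo.add_self_eq_zero _)
    have hsmall : ∀ j, a j ≤ A * (supp (cobd F i (g j))).card := by
      intro j
      obtain ⟨b, hb, hb'⟩ := expand hp hD hε hA hx hF hi (g j)
      refine le_trans ?_ hb'
      have h1 : (supp (f + b)).card ≤ (supp (f + g j)).card + (supp (g j + b)).card := by
        have : f + b = (f + g j) + (g j + b) := by
          rw [show (f + g j) + (g j + b) = f + (g j + g j) + b by abel, add_self_cochain, add_zero]
        rw [this]; exact supp_add_le _ _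
      have := hmin' b hb
      have := hsplit j
      omega
    have hanti : ∀ j, a (j + 1) ≤ a j := fun j => card_le_card fun σ hσ => by
      simp only [mem_supp, g] at hσ ⊢
      split_ifs at hσ with hs
      · exact absurd rfl hσ
      · rw [if_neg fun h => hs (h.trans (ball_mono_rad _ (Nat.le_succ j)))]; exact hσ
    -- the coboundary of a tail is charged to the faces leaving it at the next step
    have hshell : ∀ j, (supp (cobd F i (g j))).card
        ≤ (D * 2 ^ (d + 1)) * (a j - a (j + 1)) := by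
      intro j
      have hsub : (supp (cobd F i (g j))).image Subtype.val ⊆ ((supp (g j) \ supp (g (j + 1))).biUnion
          fun σ => (faces F (i + 1)).filter fun τ => σ.1 ⊆ τ) := by
        intro τ' hτ'
        obtain ⟨τ, hτ, rfl⟩ := mem_image.1 hτ'
        rw [mem_supp] at hτ
        change (∑ σ : ↥(faces F i), if σ.1 ⊆ τ.1 then g j σ else 0) ≠ 0 at hτ
        obtain ⟨σ, -, hσ⟩ := exists_ne_zero_of_sum_ne_zero hτ
        by_cases hs : σ.1 ⊆ τ.1
        swap; · exact absurd (if_neg hs) hσ
        rw [if_pos hs] at hσ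
        have hτU : ¬ τ.1 ⊆ ball F U j := fun h => hσ (if_pos (hs.trans h))
        have hy0 : y τ = 0 := by
          by_contra hc
          exact hτU ((verts_subset.1 hyU τ hc).trans (subset_ball _ _))
        have hex : ∃ σ' : ↥(faces F i), σ'.1 ⊆ τ.1 ∧ σ'.1 ⊆ ball F U j := by
          by_contra hno
          push Not at hno
          apply hτ
          refine Eq.trans (sum_congr rfl fun σ' _ => ?_) ((congr_fun hf τ).trans hy0)
          split_ifs with h'
          · exact if_neg (hno σ' h')
          · rfl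
        obtain ⟨σ', hs', hU'⟩ := hex
        obtain ⟨v, hv⟩ := card_pos.1 ((mem_faces.1 σ'.2).1 ▸ Nat.succ_pos _ : 0 < σ'.1.card)
        have hτn : τ.1 ⊆ ball F U (j + 1) := face_subset_nb τ.2 (hs' hv) (hU' hv)
        refine mem_biUnion.2 ⟨σ, mem_sdiff.2 ⟨mem_supp.2 hσ, fun h => ?_⟩,
          mem_filter.2 ⟨τ.2, hs⟩⟩
        exact mem_supp.1 h (if_pos (hs.trans hτn))
      have h1 := card_le_card hsub
      rw [card_image_of_injective _ Subtype.val_injective] at h1
      refine h1.trans ((card_biUnion_le_card_mul _ _ (D * 2 ^ (d + 1)) fun σ _ => ?_).trans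
        (le_of_eq ?_))
      · obtain ⟨v, hv⟩ := card_pos.1 ((mem_faces.1 σ.2).1 ▸ Nat.succ_pos _ : 0 < σ.1.card)
        refine le_trans (card_le_card ?_) (card_faces_at (i := i + 1) hp hD v)
        intro τ hτ
        exact mem_filter.2 ⟨(mem_filter.1 hτ).1, (mem_filter.1 hτ).2 hv⟩
      · rw [card_sdiff_of_subset, mul_comm]
        intro σ hσ
        simp only [mem_supp, g] at hσ ⊢
        split_ifs at hσ with hs
        · exact absurd rfl hσ
        · rw [if_neg fun h => hs (h.trans (ball_mono_rad _ (Nat.le_succ j)))]; exact hσ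
    have hstep : ∀ j, a j + k * a (j + 1) ≤ k * a j := by
      intro j
      have h1 := (hsmall j).trans (Nat.mul_le_mul_left A (hshell j))
      obtain ⟨e, he⟩ := Nat.exists_eq_add_of_le (hanti j)
      rw [← mul_assoc, he, Nat.add_sub_cancel_left] at h1
      have : A * (D * 2 ^ (d + 1)) * e ≤ k * e := Nat.mul_le_mul_right _ (Nat.le_succ _)
      rw [he, mul_add]
      omega
    have hmono : ∀ j l, a (j + l) ≤ a j := fun j l => by
      induction l with
      | zero => exact le_rfl
      | succ l ih => exact (hanti (j + l)).trans ih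
    have htel : ∀ j l, l * a (j + l) + k * a (j + l) ≤ k * a j := by
      intro j l
      induction l with
      | zero => simp
      | succ l ih =>
        have h1 := hstep (j + l)
        have h2 := hanti (j + l)
        have h3 : l * a (j + (l + 1)) ≤ l * a (j + l) := Nat.mul_le_mul_left l h2
        rw [Nat.succ_mul]
        show l * a (j + (l + 1)) + a (j + l + 1) + k * a (j + l + 1) ≤ _
        omega
    have hhalf : ∀ j, 2 * a (j + k) ≤ a j := fun j =>
      Nat.le_of_mul_le_mul_left (show k * (2 * a (j + k)) ≤ k * a j from by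
        have := htel j k
        rw [← mul_assoc, mul_comm k 2, mul_assoc, two_mul]
        exact this) (Nat.succ_pos _)
    have hpow : ∀ l, 2 ^ l * a (k * l) ≤ a 0 := by
      intro l
      induction l with
      | zero => simp
      | succ l ih =>
        refine le_trans ?_ ih
        rw [pow_succ, mul_assoc, mul_add, mul_one]
        exact Nat.mul_le_mul_left _ (hhalf _)
    have ha0 : a 0 < 2 ^ L := by
      refine lt_of_le_of_lt ?_ hL
      have h1 : a 0 ≤ (supp f).card := by rw [hsplit 0]; exact Nat.le_add_left _ _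
      obtain ⟨b, hb, hb'⟩ := expand hp hD hε hA hx hF hi f
      rw [hf] at hb'
      have h2 := supp_card_le hp hD hyU
      have h3 : U.card ≤ ((d + 1) * D + 1) ^ (R + 1) * (S.card + (d + 1)) := by
        refine (card_ball_le hp hD _ _).trans (Nat.mul_le_mul_left _ ((card_union_le _ _).trans ?_))
        rw [(mem_faces.1 t.2).1]; omega
      have h4 := h1.trans ((hmin' b hb).trans (hb'.trans
        (Nat.mul_le_mul_left A (h2.trans (Nat.mul_le_mul_right _ h3)))))
      refine h4.trans (le_of_eq ?_)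
      ring
    have hzero : a (k * L) = 0 := by
      by_contra hc
      have := hpow L
      have : 2 ^ L * 1 ≤ 2 ^ L * a (k * L) := Nat.mul_le_mul_left _ (Nat.pos_of_ne_zero hc)
      omega
    refine verts_subset.2 fun σ hσ => ?_
    rw [← ball_add, ← hU]
    by_contra hc
    exact notMem_empty σ (card_eq_zero.1 hzero ▸ mem_supp.2 (show g (k * L) σ ≠ 0 by
      simpa [g, hc] using hσ))
  choose f hf1 hf2 using key
  let s : Cochain F (i + 1) →ₗ[ZMod 2] Cochain F i :=
    (Pi.basisFun (ZMod 2) ↥(faces F (i + 1))).constr (ZMod 2) f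
  have hs : (cobd F i).comp s = LinearMap.id + Q :=
    (Pi.basisFun (ZMod 2) ↥(faces F (i + 1))).ext fun t => by
      rw [LinearMap.comp_apply, show s = (Pi.basisFun (ZMod 2) ↥(faces F (i + 1))).constr (ZMod 2) f
        from rfl, Module.Basis.constr_basis, hf1, Pi.basisFun_apply, LinearMap.add_apply,
        LinearMap.id_apply]
  refine ⟨s.comp (cobd F i), fun x => exact_of_expander hp hD hε hx hF hi _ ?_, fun b hb => ?_,
    fun x => ?_⟩
  · have := LinearMap.congr_fun hs (cobd F i x)
    simp only [LinearMap.comp_apply, LinearMap.add_apply, LinearMap.id_apply] at this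
    rw [map_add, LinearMap.comp_apply, this,
      hQ2 (cobd F i x) (LinearMap.mem_range_self (cobd F i) x), add_zero, add_self_cochain]
  · rw [LinearMap.comp_apply]
    rw [cobd_coboundary hb, map_zero]
  · refine verts_subset.2 fun σ hσ => ?_
    rw [LinearMap.comp_apply, show s = (Pi.basisFun (ZMod 2) ↥(faces F (i + 1))).constr (ZMod 2) f
      from rfl, Module.Basis.constr_apply_fintype, Finset.sum_apply] at hσ
    obtain ⟨t, -, ht⟩ := exists_ne_zero_of_sum_ne_zero hσ
    simp only [Pi.smul_apply, smul_eq_mul, ne_eq, mul_eq_zero, not_or] at ht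
    refine (verts_subset.1 (hf2 t) σ ht.2).trans (ball_mono_set ?_ _)
    refine union_subset_union_right ?_
    exact verts_subset.1 subset_rfl t (by simpa [Pi.basisFun_equivFun] using ht.1)

end Vale.Agent.P067
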