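import Mathlib
import Vale.Agent.P067.Local

namespace Vale.Agent.P067

open Finset

variable {n : ℕ} {F : Finset (Finset (Fin n))} {d D : ℕ}

/-- A vertex cochain as a function of the vertex. -/
def vval (g : Cochain F 0) (u : Fin n) : ZMod 2 :=
  if h : {u} ∈ faces F 0 then g ⟨{u}, h⟩ else 0

lemma singleton_face {i : ℕ} {e : Finset (Fin n)} (he : e ∈ faces F i) {u : Fin n} (hu : u ∈ e) :
    {u} ∈ faces F 0 :=
  face_of_subset he (singleton_subset_iff.2 hu) (by simp)

lemma cobd_zero_apply (g : Cochain F 0) (e : ↥(faces F 1)) :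
    cobd F 0 g e = ∑ u ∈ e.1, vval g u := by
  show (∑ σ : ↥(faces F 0), if σ.1 ⊆ e.1 then g σ else 0) = _
  rw [← sum_filter]
  symm
  refine sum_bij (fun u hu => ⟨{u}, singleton_face e.2 hu⟩)
    (fun u hu => mem_filter.2 ⟨mem_univ _, singleton_subset_iff.2 hu⟩)
    (fun u _ v _ h => by simpa using congrArg Subtype.val h) (fun σ hσ => ?_) (fun u hu => ?_)
  · obtain ⟨u, hu⟩ := card_eq_one.1 (mem_faces.1 σ.2).1
    exact ⟨u, (mem_filter.1 hσ).2 (hu ▸ mem_singleton_self u), Subtype.ext hu.symm⟩
  · rw [vval, dif_pos (singleton_face e.2 hu)]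

/-- An edge cochain as a function of two vertices. -/
def eval2 (x : Cochain F 1) (u v : Fin n) : ZMod 2 :=
  if h : {u, v} ∈ faces F 1 then x ⟨{u, v}, h⟩ else 0

lemma pair_face {u v : Fin n} (h : Adj F u v) (hne : u ≠ v) :
    ({u, v} : Finset (Fin n)) ∈ faces F 1 := by
  obtain ⟨τ, hτ, hu, hv⟩ := h.resolve_left hne
  exact mem_faces.2 ⟨card_pair hne, τ, hτ, insert_subset hu (singleton_subset_iff.2 hv)⟩

lemma eval2_cobd (g : Cochain F 0) {u v : Fin n} (h : Adj F u v) :
    eval2 (cobd F 0 g) u v = vval g u + vval g v := by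
  by_cases hne : u = v
  · subst hne
    rw [CharTwo.add_self_eq_zero, eval2, dif_neg]
    intro h'
    simpa using (mem_faces.1 h').1
  · rw [eval2, dif_pos (pair_face h hne), cobd_zero_apply, sum_pair hne]

/-- A local projection makes every edge cochain a coboundary away from its own coboundary. -/
lemma loc_potential {S : Finset (Fin n)} {R : ℕ} (h : Loc F S 1 R) (x : Cochain F 1) :
    ∃ G : Fin n → ZMod 2, ∀ u v, Adj F u v → u ∉ ball F (S ∪ verts (cobd F 1 x)) R →
      eval2 x u v = G u + G v := by
  obtain ⟨Q, h1, -, h3⟩ := h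
  obtain ⟨g, hg⟩ := h1 x
  refine ⟨vval g, fun u v ha hu => ?_⟩
  rw [← eval2_cobd g ha, hg, eval2, eval2]
  split_ifs with he
  · have : Q x ⟨{u, v}, he⟩ = 0 := by
      by_contra hc
      exact hu (verts_subset.1 (h3 x) _ hc (mem_insert_self u _))
    rw [Pi.add_apply, this, add_zero]
  · rfl

/-- Distance from `S`. -/
noncomputable def lev (F : Finset (Finset (Fin n))) (S : Finset (Fin n)) (u : Fin n) : ℕ :=
  sInf {j | u ∈ ball F S j}

section levels

variable {S : Finset (Fin n)} (hS : ∀ u, ∃ j, u ∈ ball F S j)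
include hS

lemma lev_mem (u : Fin n) : u ∈ ball F S (lev F S u) := Nat.sInf_mem (hS u)

lemma lev_le_iff {u : Fin n} {j : ℕ} : lev F S u ≤ j ↔ u ∈ ball F S j :=
  ⟨fun h => ball_mono_rad S h (lev_mem hS u), fun h => Nat.sInf_le h⟩

lemma lev_ball {u v : Fin n} {j : ℕ} (h : v ∈ ball F {u} j) : lev F S v ≤ lev F S u + j := by
  rw [lev_le_iff hS, ← ball_add]
  exact ball_mono_set (singleton_subset_iff.2 (lev_mem hS u)) j h

lemma lev_adj {u v : Fin n} (h : Adj F u v) : lev F S v ≤ lev F S u + 1 :=
  lev_ball hS (adj_ball h)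

lemma exists_parent (u : Fin n) : ∃ w, Adj F u w ∧ lev F S w = lev F S u - 1 := by
  by_cases h : lev F S u = 0
  · exact ⟨u, Or.inl rfl, by omega⟩
  obtain ⟨k, hk⟩ := Nat.exists_eq_succ_of_ne_zero h
  have hu : u ∈ nb F (ball F S k) := by
    have := lev_mem hS u; rwa [hk] at this
  obtain ⟨w, hw, ha⟩ := mem_nb.1 hu
  refine ⟨w, adj_symm ha, ?_⟩
  have := (lev_le_iff hS).2 hw
  have := lev_adj hS ha
  omega

/-- A neighbour closer to `S`. -/
noncomputable def par (u : Fin n) : Fin n := (exists_parent hS u).choose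

lemma anc_lev (u : Fin n) : ∀ j, lev F S ((par hS)^[j] u) = lev F S u - j
  | 0 => rfl
  | j + 1 => by
    rw [Function.iterate_succ_apply', par, (exists_parent hS _).choose_spec.2, anc_lev u j]
    omega

lemma anc_adj (u : Fin n) (j : ℕ) : Adj F ((par hS)^[j] u) ((par hS)^[j + 1] u) := by
  rw [Function.iterate_succ_apply', par]
  exact (exists_parent hS _).choose_spec.1

lemma anc_ball (u : Fin n) (j : ℕ) : ∀ m, (par hS)^[j + m] u ∈ ball F {(par hS)^[j] u} m
  | 0 => mem_singleton_self _
  | m + 1 => mem_nb.2 ⟨_, anc_ball u j m, anc_adj hS u (j + m)⟩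

end levels

/-- Adjacency above level `r`. -/
def Up (F : Finset (Finset (Fin n))) (S : Finset (Fin n)) (r : ℕ) (u v : Fin n) : Prop :=
  Adj F u v ∧ r < lev F S u ∧ r < lev F S v

/-- Two points on one level joined above it and descending to the same point are close. -/
lemma close_of_joined {S : Finset (Fin n)} {R r : ℕ} (hS : ∀ u, ∃ j, u ∈ ball F S j)
    (hloc : Loc F S 1 R) (hr : 4 * R + 8 ≤ r) {x y : Fin n} (hx : lev F S x = r + 1)
    (hy : lev F S y = r + 1) (hxy : Relation.ReflTransGen (Up F S r) x y)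
    (hroot : (par hS)^[r - R] x = (par hS)^[r - R] y) : y ∈ ball F {x} (20 * R + 30) := by
  classical
  by_contra hfar
  set c := (par hS)^[2 * R + 3] x with hc
  set s := r - (2 * R + 2) with hs
  have hcs : lev F S c = s := by rw [hc, anc_lev, hx]; omega
  let h : Cochain F 0 := fun σ => if ∀ u ∈ σ.1, lev F S u ≤ s then 1 else 0
  let φ : Cochain F 1 := fun e => if e.1 ⊆ ball F {c} (3 * R + 5) then cobd F 0 h e else 0
  have hΩ : ∀ w ∈ verts (cobd F 1 φ), s ≤ lev F S w + 1 ∧ lev F S w ≤ s + 2 ∧
      w ∉ ball F {c} (3 * R + 4) ∧ w ∈ ball F {c} (3 * R + 6) := by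
    intro w hw
    obtain ⟨τ, hτ, hwτ⟩ := mem_biUnion.1 hw
    rw [mem_supp] at hτ
    change (∑ e : ↥(faces F 1), if e.1 ⊆ τ.1 then φ e else 0) ≠ 0 at hτ
    have hout : ¬ τ.1 ⊆ ball F {c} (3 * R + 5) := by
      intro hin
      apply hτ
      refine Eq.trans (sum_congr rfl fun e _ => ?_) (congr_fun (cobd_cobd h) τ)
      split_ifs with he
      · exact if_pos (he.trans hin)
      · rfl
    obtain ⟨e, -, he⟩ := exists_ne_zero_of_sum_ne_zero hτ
    by_cases hes : e.1 ⊆ τ.1
    swap; · exact absurd (if_neg hes) he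
    rw [if_pos hes] at he
    by_cases heb : e.1 ⊆ ball F {c} (3 * R + 5)
    swap; · exact absurd (if_neg heb) he
    replace he : cobd F 0 h e ≠ 0 := by simpa [φ, heb] using he
    obtain ⟨p, hp, hpo⟩ := not_subset.1 hout
    obtain ⟨u, v, huv, hev⟩ := card_eq_two.1 (mem_faces.1 e.2).1
    have hue : u ∈ e.1 := by rw [hev]; exact mem_insert_self u _
    have hve : v ∈ e.1 := by rw [hev]; exact mem_insert_of_mem (mem_singleton_self v)
    have hvh : ∀ a ∈ e.1, vval h a = if lev F S a ≤ s then 1 else 0 := fun a ha => by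
      rw [vval, dif_pos (singleton_face e.2 ha)]
      simp [h]
    rw [cobd_zero_apply, hev, sum_pair huv, hvh u hue, hvh v hve] at he
    have l1 := lev_adj hS (adj_of_face τ.2 (hes hue) (hes hve))
    have l2 := lev_adj hS (adj_of_face τ.2 (hes hve) (hes hue))
    have l3 := lev_adj hS (adj_of_face τ.2 (hes hue) hwτ)
    have l4 := lev_adj hS (adj_of_face τ.2 hwτ (hes hue))
    refine ⟨?_, ?_, fun hin => hpo (mem_nb.2 ⟨w, hin, adj_of_face τ.2 hwτ hp⟩),
      mem_nb.2 ⟨u, heb hue, adj_of_face τ.2 (hes hue) hwτ⟩⟩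
    all_goals
      split_ifs at he with a1 a2 a2
      all_goals first
        | exact absurd (CharTwo.add_self_eq_zero _) he
        | omega
  obtain ⟨G, hG⟩ := loc_potential hloc φ
  have hbad : ∀ u, R < lev F S u → u ∈ ball F (S ∪ verts (cobd F 1 φ)) R →
      ∃ w ∈ verts (cobd F 1 φ), u ∈ ball F {w} R := by
    intro u hu hb
    obtain ⟨w, hw, hwu⟩ := mem_ball_iff.1 hb
    rcases mem_union.1 hw with hw | hw
    · have := lev_ball hS hwu
      have : lev F S w ≤ 0 := (lev_le_iff hS).2 hw
      omega
    · exact ⟨w, hw, hwu⟩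
  have hval : ∀ u v, Adj F u v → (u ∈ ball F {c} (3 * R + 5) ∧ v ∈ ball F {c} (3 * R + 5) →
      eval2 φ u v = (if lev F S u ≤ s then 1 else 0) + (if lev F S v ≤ s then 1 else 0)) ∧
      (¬(u ∈ ball F {c} (3 * R + 5) ∧ v ∈ ball F {c} (3 * R + 5)) ∨
        (lev F S u ≤ s ↔ lev F S v ≤ s) → eval2 φ u v = 0) := by
    intro u v ha
    by_cases hne : u = v
    · subst hne
      have : eval2 φ u u = 0 := dif_neg fun h' => by simpa using (mem_faces.1 h').1
      rw [this]
      exact ⟨fun _ => (CharTwo.add_self_eq_zero _).symm, fun _ => rfl⟩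
    have hf := pair_face ha hne
    have hvh : ∀ a ∈ ({u, v} : Finset (Fin n)), vval h a = if lev F S a ≤ s then 1 else 0 :=
      fun a ha' => by
        rw [vval, dif_pos (singleton_face hf ha')]
        simp [h]
    have e : cobd F 0 h ⟨{u, v}, hf⟩
        = (if lev F S u ≤ s then 1 else 0) + (if lev F S v ≤ s then 1 else 0) := by
      rw [cobd_zero_apply, sum_pair hne, hvh u (mem_insert_self u _),
        hvh v (mem_insert_of_mem (mem_singleton_self v))]
    rw [eval2, dif_pos hf]
    refine ⟨fun hb => (if_pos (insert_subset hb.1 (singleton_subset_iff.2 hb.2))).trans e,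
      fun hor => ?_⟩
    show (if ({u, v} : Finset (Fin n)) ⊆ ball F {c} (3 * R + 5)
      then cobd F 0 h ⟨{u, v}, hf⟩ else 0) = 0
    split_ifs with hb
    · rcases hor with hor | hor
      · exact absurd ⟨hb (mem_insert_self u _), hb (mem_insert_of_mem (mem_singleton_self v))⟩ hor
      · rw [e]; simp only [hor]; exact CharTwo.add_self_eq_zero _
    · rfl
  -- along the path
  have hpath : G y = G x := by
    clear hroot hfar hy
    induction hxy with
    | refl => rfl
    | @tail u v _ huv ih =>
      obtain ⟨ha, hu, hv⟩ := huv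
      have h1 := hG u v ha fun hb => by
        obtain ⟨w, hw, hwu⟩ := hbad u (by omega) hb
        have := lev_ball hS hwu
        have := hΩ w hw
        omega
      rw [(hval u v ha).2 (Or.inr (by omega))] at h1
      rw [← ih]
      exact (CharTwo.add_eq_zero.1 h1.symm).symm
  -- along the first descent
  have hfirst : ∀ j, j ≤ r - R → G ((par hS)^[j] x) = G x + if 2 * R + 3 ≤ j then 1 else 0 := by
    intro j
    induction j with
    | zero => simp
    | succ j ih =>
      intro hj
      have hl := anc_lev hS x j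
      have hl' := anc_lev hS x (j + 1)
      rw [hx] at hl hl'
      have h1 := hG _ _ (anc_adj hS x j) fun hb => by
        obtain ⟨w, hw, hwu⟩ := hbad _ (by omega) hb
        have := lev_ball hS hwu
        have := lev_ball hS (ball_symm hwu)
        obtain ⟨_, _, h3, -⟩ := hΩ w hw
        apply h3
        have hnear : (par hS)^[j] x ∈ ball F {c} (2 * R + 4) := by
          rcases le_total j (2 * R + 3) with hle | hle
          · have := anc_ball hS x j (2 * R + 3 - j)
            rw [Nat.add_sub_cancel' hle] at this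
            exact ball_mono_rad _ (by omega) (ball_symm this)
          · have := anc_ball hS x (2 * R + 3) (j - (2 * R + 3))
            rw [Nat.add_sub_cancel' hle] at this
            exact ball_mono_rad _ (by omega) this
        exact ball_mono_rad _ (by omega) (ball_triangle hnear (ball_symm hwu))
      rw [ih (by omega)] at h1
      by_cases hjs : j + 1 = 2 * R + 3
      · have hin : (par hS)^[j] x ∈ ball F {c} (3 * R + 5) ∧
            (par hS)^[j + 1] x ∈ ball F {c} (3 * R + 5) := by
          refine ⟨?_, ?_⟩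
          · have := anc_ball hS x j 1
            rw [hjs] at this
            exact ball_mono_rad _ (by omega) (ball_symm this)
          · rw [hjs]; exact subset_ball _ _ (mem_singleton_self _)
        rw [(hval _ _ (anc_adj hS x j)).1 hin, if_neg (by omega), if_pos (by omega), zero_add,
          if_neg (by omega), add_zero] at h1
        rw [if_pos (by omega), h1, ← add_assoc, CharTwo.add_self_eq_zero, zero_add]
      · rw [(hval _ _ (anc_adj hS x j)).2 (Or.inr (by omega))] at h1
        rw [← CharTwo.add_eq_zero.1 h1.symm]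
        congr 1
        exact if_congr (by omega) rfl rfl
  -- along the second descent
  have hsecond : ∀ j, j ≤ r - R → G ((par hS)^[j] y) = G y := by
    intro j
    induction j with
    | zero => simp
    | succ j ih =>
      intro hj
      have hl := anc_lev hS y j
      have hl' := anc_lev hS y (j + 1)
      rw [hy] at hl hl'
      have hno : j ≤ 3 * R + 6 → (par hS)^[j] y ∉ ball F {c} (4 * R + 7) := by
        intro hj' hb
        apply hfar
        have h1 := anc_ball hS x 0 (2 * R + 3)
        have h2 := anc_ball hS y 0 j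
        rw [Nat.zero_add] at h1 h2
        exact ball_mono_rad _ (by omega) (ball_triangle (ball_triangle h1 hb) (ball_symm h2))
      have h1 := hG _ _ (anc_adj hS y j) fun hb => by
        obtain ⟨w, hw, hwu⟩ := hbad _ (by omega) hb
        have := lev_ball hS hwu
        have := lev_ball hS (ball_symm hwu)
        obtain ⟨_, _, _, h4⟩ := hΩ w hw
        exact hno (by omega) (ball_mono_rad _ (by omega) (ball_triangle h4 hwu))
      rw [ih (by omega)] at h1
      by_cases hjs : j + 1 = 2 * R + 3
      · rw [(hval _ _ (anc_adj hS y j)).2 (Or.inl fun hb =>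
          hno (by omega) (ball_mono_rad _ (by omega) hb.1))] at h1
        exact (CharTwo.add_eq_zero.1 h1.symm).symm
      · rw [(hval _ _ (anc_adj hS y j)).2 (Or.inr (by omega))] at h1
        exact (CharTwo.add_eq_zero.1 h1.symm).symm
  have e1 := hfirst (r - R) le_rfl
  rw [hroot, hsecond (r - R) le_rfl, hpath, if_pos (by omega)] at e1
  simpa using e1

end Vale.Agent.P067
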