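import Mathlib
import Vale.Agent.P067.Separator

namespace Vale.Agent.P067

open Finset

variable {n : ℕ} {F : Finset (Finset (Fin n))} {d D : ℕ}

/-- The piece above level `r` containing a vertex. -/
noncomputable def comp (F : Finset (Finset (Fin n))) (S : Finset (Fin n)) (r : ℕ) (u : Fin n) :
    Finset (Fin n) := by
  classical exact univ.filter fun w => Relation.ReflTransGen (Up F S r) u w

lemma mem_comp {S : Finset (Fin n)} {r : ℕ} {u w : Fin n} :
    w ∈ comp F S r u ↔ Relation.ReflTransGen (Up F S r) u w := by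
  classical simp [comp]

lemma up_symm {S : Finset (Fin n)} {r : ℕ} : Std.Symm (Up F S r) :=
  ⟨fun _ _ h => ⟨adj_symm h.1, h.2.2, h.2.1⟩⟩

lemma rtg_symm {S : Finset (Fin n)} {r : ℕ} {u w : Fin n}
    (h : Relation.ReflTransGen (Up F S r) u w) : Relation.ReflTransGen (Up F S r) w u := by
  induction h with
  | refl => exact .refl
  | tail _ hab ih => exact .head (up_symm.symm _ _ hab) ih

lemma comp_eq_of_up {S : Finset (Fin n)} {r : ℕ} {u v : Fin n} (h : Up F S r u v) :
    comp F S r u = comp F S r v := by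
  ext w
  simp only [mem_comp]
  exact ⟨fun hw => (rtg_symm (.single h)).trans hw, fun hw => .head h hw⟩

lemma comp_lev {S : Finset (Fin n)} {r : ℕ} {u w : Fin n} (hu : r < lev F S u)
    (h : w ∈ comp F S r u) : r < lev F S w := by
  rcases Relation.ReflTransGen.cases_tail (mem_comp.1 h) with e | ⟨b, -, hb⟩
  · rw [e]; exact hu
  · exact hb.2.2

variable (hp : IsPure F d) (hD : DegreeAtMost F D)
include hp hD

/-- A labelling of the vertices, constant along edges outside a small set, with all classes
small. -/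
lemma exists_separator {S : Finset (Fin n)} {R : ℕ} (hS : ∀ u, ∃ j, u ∈ ball F S j)
    (hloc : Loc F S 1 R) :
    ∃ (P : Finset (Fin n)) (ℓ : Fin n → Option (Finset (Fin n))),
      P.card ≤ S.card * ((d + 1) * D + 1) ^ (21 * R + 31) ∧
      (∀ u v, Adj F u v → u ∉ P → v ∉ P → ℓ u = ℓ v) ∧
      ∀ K, 2 * ((univ.filter fun u => u ∉ P ∧ ℓ u = K).card) ≤ n := by
  classical
  have hM : 0 < (d + 1) * D + 1 := Nat.succ_pos _
  by_cases hbig : ∃ u, 4 * R + 8 < lev F S u ∧ n < 2 * (comp F S (4 * R + 8) u).card
  swap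
  · push Not at hbig
    refine ⟨ball F S (4 * R + 8), fun u => some (comp F S (4 * R + 8) u), ?_, ?_, ?_⟩
    · refine (card_ball_le hp hD S _).trans ?_
      rw [mul_comm]
      exact Nat.mul_le_mul_left _ (Nat.pow_le_pow_right hM (by omega))
    · intro u v ha hu hv
      rw [← lev_le_iff hS, not_le] at hu hv
      show some _ = some _
      rw [comp_eq_of_up ⟨ha, hu, hv⟩]
    · intro K
      by_cases he : (univ.filter fun u => u ∉ ball F S (4 * R + 8) ∧
          some (comp F S (4 * R + 8) u) = K).Nonempty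
      · obtain ⟨u, hu⟩ := he
        obtain ⟨-, hu, hK⟩ := mem_filter.1 hu
        rw [← lev_le_iff hS, not_le] at hu
        refine le_trans ?_ (hbig u hu)
        refine Nat.mul_le_mul_left 2 (card_le_card fun w hw => ?_)
        obtain ⟨-, -, hw⟩ := mem_filter.1 hw
        rw [← hK, Option.some.injEq] at hw
        rw [← hw]
        exact mem_comp.2 .refl
      · rw [not_nonempty_iff_eq_empty] at he
        rw [he]; simp
  · obtain ⟨u₀, hu₀, hc₀⟩ := hbig
    have hbd : ∀ r, (∃ u, r < lev F S u ∧ n < 2 * (comp F S r u).card) →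
        r ≤ (univ : Finset (Fin n)).sup (lev F S) := fun r ⟨u, hu, _⟩ =>
      hu.le.trans (le_sup (f := lev F S) (mem_univ u))
    set r := Nat.findGreatest (fun r => ∃ u, r < lev F S u ∧ n < 2 * (comp F S r u).card)
      ((univ : Finset (Fin n)).sup (lev F S)) with hr
    obtain ⟨u, hu, hcu⟩ : ∃ u, r < lev F S u ∧ n < 2 * (comp F S r u).card :=
      Nat.findGreatest_spec (P := fun r => ∃ u, r < lev F S u ∧ n < 2 * (comp F S r u).card)
        (hbd (4 * R + 8) ⟨u₀, hu₀, hc₀⟩) ⟨u₀, hu₀, hc₀⟩
    have hr0 : 4 * R + 8 ≤ r := Nat.le_findGreatest (hbd _ ⟨u₀, hu₀, hc₀⟩) ⟨u₀, hu₀, hc₀⟩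
    have hmax : ∀ v, r + 1 < lev F S v → 2 * (comp F S (r + 1) v).card ≤ n := by
      intro v hv
      by_contra hc
      push Not at hc
      exact Nat.findGreatest_is_greatest (Nat.lt_succ_self r) (hbd _ ⟨v, hv, hc⟩) ⟨v, hv, hc⟩
    set C := comp F S r u with hC
    set P := C.filter fun w => lev F S w = r + 1 with hP
    refine ⟨P, fun w => if w ∈ C then some (comp F S (r + 1) w) else none, ?_, ?_, ?_⟩
    · -- few points of one piece on its lowest level
      let root : Fin n → Fin n := (par hS)^[r - R]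
      have hcov : P ⊆ (P.image root).biUnion fun ρ => P.filter fun w => root w = ρ :=
        fun w hw => mem_biUnion.2 ⟨root w, mem_image_of_mem _ hw, mem_filter.2 ⟨hw, rfl⟩⟩
      refine (card_le_card hcov).trans ((card_biUnion_le_card_mul _ _
        (((d + 1) * D + 1) ^ (20 * R + 30)) fun ρ hρ => ?_).trans ?_)
      · obtain ⟨x, hx, rfl⟩ := mem_image.1 hρ
        refine (card_le_card (t := ball F {x} (20 * R + 30)) fun y hy => ?_).trans
          (by simpa using card_ball_le hp hD {x} (20 * R + 30))
        obtain ⟨hy, hroot⟩ := mem_filter.1 hy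
        obtain ⟨hxC, hx⟩ := mem_filter.1 hx
        obtain ⟨hyC, hy⟩ := mem_filter.1 hy
        exact close_of_joined hS hloc hr0 hx hy
          ((rtg_symm (mem_comp.1 hxC)).trans (mem_comp.1 hyC)) hroot.symm
      · have hsub : P.image root ⊆ ball F S (R + 1) := by
          intro ρ hρ
          obtain ⟨x, hx, rfl⟩ := mem_image.1 hρ
          rw [← lev_le_iff hS, anc_lev hS, (mem_filter.1 hx).2]
          omega
        refine (Nat.mul_le_mul_right _ ((card_le_card hsub).trans (card_ball_le hp hD S _))).trans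
          (le_of_eq ?_)
        rw [mul_right_comm, ← pow_add, show R + 1 + (20 * R + 30) = 21 * R + 31 by omega, mul_comm]
    · intro a b hab ha hb
      dsimp only
      by_cases haC : a ∈ C <;> by_cases hbC : b ∈ C
      · have la := comp_lev hu haC
        have lb := comp_lev hu hbC
        have la' : lev F S a ≠ r + 1 := fun h => ha (mem_filter.2 ⟨haC, h⟩)
        have lb' : lev F S b ≠ r + 1 := fun h => hb (mem_filter.2 ⟨hbC, h⟩)
        rw [if_pos haC, if_pos hbC, comp_eq_of_up ⟨hab, by omega, by omega⟩]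
      · exfalso
        have la := comp_lev hu haC
        have la' : lev F S a ≠ r + 1 := fun h => ha (mem_filter.2 ⟨haC, h⟩)
        have := lev_adj hS (adj_symm hab)
        exact hbC (mem_comp.2 ((mem_comp.1 haC).tail ⟨hab, la, by omega⟩))
      · exfalso
        have lb := comp_lev hu hbC
        have lb' : lev F S b ≠ r + 1 := fun h => hb (mem_filter.2 ⟨hbC, h⟩)
        have := lev_adj hS hab
        exact haC (mem_comp.2 ((mem_comp.1 hbC).tail ⟨adj_symm hab, lb, by omega⟩))
      · rw [if_neg haC, if_neg hbC]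
    · intro K
      dsimp only
      by_cases he : (univ.filter fun w => w ∉ P ∧
          (if w ∈ C then some (comp F S (r + 1) w) else none) = K).Nonempty
      · obtain ⟨w, hw⟩ := he
        obtain ⟨-, hwP, hwK⟩ := mem_filter.1 hw
        by_cases hwC : w ∈ C
        · rw [if_pos hwC] at hwK
          have l := comp_lev hu hwC
          have l' : lev F S w ≠ r + 1 := fun h => hwP (mem_filter.2 ⟨hwC, h⟩)
          refine le_trans ?_ (hmax w (by omega))
          refine Nat.mul_le_mul_left 2 (card_le_card fun v hv => ?_)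
          obtain ⟨-, -, hv⟩ := mem_filter.1 hv
          rw [← hwK] at hv
          split_ifs at hv with hvC
          rw [← Option.some.inj hv]
          exact mem_comp.2 .refl
        · rw [if_neg hwC] at hwK
          have hsub : (univ.filter fun v => v ∉ P ∧
              (if v ∈ C then some (comp F S (r + 1) v) else none) = K) ⊆ univ \ C := by
            intro v hv
            obtain ⟨-, -, hv⟩ := mem_filter.1 hv
            rw [← hwK] at hv
            split_ifs at hv with hvC
            exact mem_sdiff.2 ⟨mem_univ _, hvC⟩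
          have := card_le_card hsub
          rw [card_sdiff_of_subset (subset_univ C), card_univ, Fintype.card_fin] at this
          omega
      · rw [not_nonempty_iff_eq_empty] at he
        rw [he]; simp

section expansion

variable {ε : ℝ} {A : ℕ} (hε : 0 < ε) (hA : (2 : ℝ) ^ (d + 1) * D ≤ ε * A)
  (hx : IsExpander F d ε) (hd : 0 < d)
include hε hA hx hd

/-- A cut with two large sides meets many vertices. -/
lemma cut_bound {U P : Finset (Fin n)}
    (hcut : ∀ u v, Adj F u v → u ∉ P → v ∉ P → (u ∈ U ↔ v ∈ U)) :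
    U.card ≤ A * (P.card * (D * 2 ^ (d + 1))) ∨ n - U.card ≤ A * (P.card * (D * 2 ^ (d + 1))) := by
  classical
  rcases Nat.eq_zero_or_pos n with hn | hn
  · right; omega
  have hF : 0 < F.card := by
    obtain ⟨τ, hτ, -⟩ := hp.2 ⟨0, hn⟩
    exact card_pos.2 ⟨τ, hτ⟩
  let f : Cochain F 0 := fun σ => if σ.1 ⊆ U then 1 else 0
  have hone : ∀ u, ({u} : Finset (Fin n)) ∈ faces F 0 := fun u => by
    obtain ⟨τ, hτ, hu⟩ := hp.2 u
    exact mem_faces.2 ⟨by simp, τ, hτ, singleton_subset_iff.2 hu⟩
  have hcob : (supp (cobd F 0 f)).card ≤ P.card * (D * 2 ^ (d + 1)) := by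
    have hsub : (supp (cobd F 0 f)).image Subtype.val
        ⊆ P.biUnion fun v => (faces F 1).filter fun e => v ∈ e := by
      intro e' he'
      obtain ⟨e, he, rfl⟩ := mem_image.1 he'
      rw [mem_supp, cobd_zero_apply] at he
      obtain ⟨u, v, huv, hev⟩ := card_eq_two.1 (mem_faces.1 e.2).1
      have hu : u ∈ e.1 := by rw [hev]; exact mem_insert_self u _
      have hv : v ∈ e.1 := by rw [hev]; exact mem_insert_of_mem (mem_singleton_self v)
      by_contra hno
      apply he
      have huP : u ∉ P := fun h => hno (mem_biUnion.2 ⟨u, h, mem_filter.2 ⟨e.2, hu⟩⟩)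
      have hvP : v ∉ P := fun h => hno (mem_biUnion.2 ⟨v, h, mem_filter.2 ⟨e.2, hv⟩⟩)
      have := hcut u v (adj_of_face e.2 hu hv) huP hvP
      rw [hev, sum_pair huv, vval, vval, dif_pos (hone u), dif_pos (hone v)]
      simp only [f, singleton_subset_iff, this]
      exact CharTwo.add_self_eq_zero _
    have := card_le_card hsub
    rw [card_image_of_injective _ Subtype.val_injective] at this
    exact this.trans (card_biUnion_le_card_mul _ _ _ fun v _ => card_faces_at hp hD v)
  obtain ⟨b, hb, hb'⟩ := expand hp hD hε hA hx hF hd f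
  obtain ⟨c, rfl⟩ := Submodule.mem_span_singleton.1 hb
  have h := hb'.trans (Nat.mul_le_mul_left A hcob)
  let em : Fin n → ↥(faces F 0) := fun u => ⟨{u}, hone u⟩
  have hem : Function.Injective em := fun u v huv => by simpa [em] using congrArg Subtype.val huv
  rcases zmod2 c with rfl | rfl
  · left
    refine le_trans ?_ h
    refine card_le_card_of_injOn em (fun u hu => ?_) hem.injOn
    simp [mem_supp, f, em, mem_coe.1 hu]
  · right
    refine le_trans ?_ h
    rw [show n - U.card = (univ \ U).card by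
      rw [card_sdiff_of_subset (subset_univ U), card_univ, Fintype.card_fin]]
    refine card_le_card_of_injOn em (fun u hu => ?_) hem.injOn
    simp [mem_supp, f, em, (mem_sdiff.1 (mem_coe.1 hu)).2]

lemma reach {S : Finset (Fin n)} (hS : S.Nonempty) : ∀ u, ∃ j, u ∈ ball F S j := by
  classical
  obtain ⟨s, hs⟩ := hS
  set U := univ.filter fun u => ∃ j, u ∈ ball F S j with hU
  have hcut : ∀ u v, Adj F u v → u ∉ (∅ : Finset (Fin n)) → v ∉ (∅ : Finset (Fin n)) →
      (u ∈ U ↔ v ∈ U) := by
    intro u v h _ _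
    simp only [hU, mem_filter, mem_univ, true_and]
    exact ⟨fun ⟨j, hj⟩ => ⟨j + 1, mem_nb.2 ⟨u, hj, h⟩⟩,
      fun ⟨j, hj⟩ => ⟨j + 1, mem_nb.2 ⟨v, hj, adj_symm h⟩⟩⟩
  intro u
  rcases cut_bound hp hD hε hA hx hd hcut with h | h
  · rw [card_empty, Nat.zero_mul, Nat.mul_zero, Nat.le_zero, card_eq_zero] at h
    exact absurd (h ▸ (mem_filter.2 ⟨mem_univ s, 0, hs⟩ : s ∈ U)) (notMem_empty s)
  · have : U = univ := eq_of_subset_of_card_le (subset_univ U) (by
      rw [card_univ, Fintype.card_fin]; simp at h; omega)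
    exact (mem_filter.1 (this ▸ mem_univ u : u ∈ U)).2

/-- A small separator bounds the number of vertices. -/
lemma size_bound {S : Finset (Fin n)} {R : ℕ} (hS : S.Nonempty) (hloc : Loc F S 1 R) :
    n ≤ 4 * (A * (D * 2 ^ (d + 1)) + 1) * (S.card * ((d + 1) * D + 1) ^ (21 * R + 31)) := by
  classical
  obtain ⟨P, ℓ, hPc, hedge, hclass⟩ :=
    exists_separator hp hD (reach hp hD hε hA hx hd hS) hloc
  let pre : Finset (Option (Finset (Fin n))) → Finset (Fin n) := fun L =>
    univ.filter fun u => u ∉ P ∧ ℓ u ∈ L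
  obtain ⟨L, hL, hmax⟩ := exists_max_image
    ((univ : Finset (Finset (Option (Finset (Fin n))))).filter fun L => 4 * (pre L).card ≤ 3 * n)
    (fun L => (pre L).card) ⟨∅, by simp [pre]⟩
  replace hL := (mem_filter.1 hL).2
  set K := A * (D * 2 ^ (d + 1)) + 1 with hK
  have hfin : n ≤ 4 * (K * P.card) → n ≤ 4 * K * (S.card * ((d + 1) * D + 1) ^ (21 * R + 31)) :=
    fun h => h.trans (by rw [mul_assoc]; exact Nat.mul_le_mul_left _ (Nat.mul_le_mul_left _ hPc))
  apply hfin
  have hP1 : P.card ≤ K * P.card := Nat.le_mul_of_pos_left _ (Nat.succ_pos _)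
  by_cases hlow : 4 * (pre L).card < n
  · have hall : ∀ u, u ∉ P → u ∈ pre L := by
      intro u hu
      by_contra hno
      have hnew : pre (insert (ℓ u) L) ⊆ pre L ∪ univ.filter fun w => w ∉ P ∧ ℓ w = ℓ u := by
        intro w hw
        obtain ⟨-, hwP, hwL⟩ := mem_filter.1 hw
        rcases mem_insert.1 hwL with h | h
        · exact mem_union_right _ (mem_filter.2 ⟨mem_univ _, hwP, h⟩)
        · exact mem_union_left _ (mem_filter.2 ⟨mem_univ _, hwP, h⟩)
      have h1 := (card_le_card hnew).trans (card_union_le _ _)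
      have h2 := hclass (ℓ u)
      have h3 : (pre L).card < (pre (insert (ℓ u) L)).card := by
        refine card_lt_card (ssubset_iff_of_subset (fun w hw => ?_) |>.2 ⟨u, ?_, hno⟩)
        · obtain ⟨-, hwP, hwL⟩ := mem_filter.1 hw
          exact mem_filter.2 ⟨mem_univ _, hwP, mem_insert_of_mem hwL⟩
        · exact mem_filter.2 ⟨mem_univ _, hu, mem_insert_self _ _⟩
      have := hmax (insert (ℓ u) L) (mem_filter.2 ⟨mem_univ _, by omega⟩)
      omega
    have : (univ : Finset (Fin n)) ⊆ P ∪ pre L := fun u _ =>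
      if h : u ∈ P then mem_union_left _ h else mem_union_right _ (hall u h)
    have := (card_le_card this).trans (card_union_le _ _)
    rw [card_univ, Fintype.card_fin] at this
    omega
  · have hcut : ∀ u v, Adj F u v → u ∉ P → v ∉ P → (u ∈ pre L ↔ v ∈ pre L) := by
      intro u v h hu hv
      simp only [pre, mem_filter, mem_univ, true_and, hu, hv, not_false_eq_true,
        hedge u v h hu hv]
    have hb : A * (P.card * (D * 2 ^ (d + 1))) ≤ K * P.card := by
      rw [hK, Nat.succ_mul]
      refine le_trans (le_of_eq ?_) (Nat.le_add_right _ _)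
      ring
    rcases cut_bound hp hD hε hA hx hd hcut with h | h <;> omega

end expansion

end Vale.Agent.P067
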