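import Mathlib
import Vale.Agent.P067.Main

namespace Vale.Agent.P067

open Finset

/-- The coefficient of the radius after `j` downward steps. -/
def radC (k u m : ℕ) : ℕ → ℕ
  | 0 => 0
  | j + 1 => radC k u m j + 1 + k * (u + 1 + m * (radC k u m j + 1))

/-- One step, with the radius linear in `L`. -/
lemma loc_step' {n d D i : ℕ} {F : Finset (Finset (Fin n))} (hp : IsPure F d)
    (hD : DegreeAtMost F D) {ε : ℝ} {A : ℕ} (hε : 0 < ε) (hA : (2 : ℝ) ^ (d + 1) * D ≤ ε * A)
    (hx : IsExpander F d ε) (hF : 0 < F.card) (hi : i < d) {S : Finset (Fin n)} {L u m c : ℕ}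
    (hu : A * (D * 2 ^ (d + 1)) * (d + 1) < 2 ^ u) (hM : (d + 1) * D + 1 ≤ 2 ^ m)
    (hS : S.card + (d + 1) ≤ (d + 1) * 2 ^ L) (hL : 1 ≤ L) (h : Loc F S (i + 1) (c * L)) :
    Loc F S i ((c + 1 + (A * (D * 2 ^ (d + 1)) + 1) * (u + 1 + m * (c + 1))) * L) := by
  have h1 : u ≤ u * L := Nat.le_mul_of_pos_right u hL
  have h2 : m ≤ m * L := Nat.le_mul_of_pos_right m hL
  refine (loc_step (L := (u + 1 + m * (c + 1)) * L) hp hD hε hA hx hF hi ?_ h).mono ?_
  · generalize D * 2 ^ (d + 1) = p at hu ⊢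
    generalize (d + 1) * D + 1 = M at hM ⊢
    calc A * p * M ^ (c * L + 1) * (S.card + (d + 1))
        ≤ A * p * M ^ (c * L + 1) * ((d + 1) * 2 ^ L) := Nat.mul_le_mul_left _ hS
      _ = A * p * (d + 1) * (M ^ (c * L + 1) * 2 ^ L) := by ring
      _ ≤ A * p * (d + 1) * (2 ^ (m * (c * L + 1)) * 2 ^ L) := by
          refine Nat.mul_le_mul_left _ (Nat.mul_le_mul_right _ ?_)
          rw [pow_mul]; exact Nat.pow_le_pow_left hM _
      _ < 2 ^ u * (2 ^ (m * (c * L + 1)) * 2 ^ L) :=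
          Nat.mul_lt_mul_of_pos_right hu (by positivity)
      _ ≤ 2 ^ ((u + 1 + m * (c + 1)) * L) := by
          rw [← pow_add, ← pow_add]
          refine Nat.pow_le_pow_right two_pos ?_
          calc u + (m * (c * L + 1) + L) = u + m + L + m * c * L := by ring
            _ ≤ u * L + m * L + L + m * c * L := by omega
            _ = _ := by ring
  · generalize A * (D * 2 ^ (d + 1)) + 1 = k
    rw [← mul_assoc, add_mul _ _ L, add_mul c 1 L, one_mul]
    omega

theorem betti_bound (d D : ℕ) (hd : 1 ≤ d) (ε : ℝ) (hε : 0 < ε) :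
    ∃ C K : ℕ, ∀ (n : ℕ) (F : Finset (Finset (Fin n))),
      IsPure F d → DegreeAtMost F D → IsExpander F d ε → n ≤ C * (topBetti F d + 1) ^ K := by
  set A := ⌈(2 : ℝ) ^ (d + 1) * D / ε⌉₊ with hAdef
  have hA : (2 : ℝ) ^ (d + 1) * D ≤ ε * A := by
    rw [← div_le_iff₀' hε]; exact Nat.le_ceil _
  set M := (d + 1) * D + 1 with hMdef
  set p := D * 2 ^ (d + 1) with hpdef
  set m := Nat.log 2 M + 1 with hmdef
  have hM : M ≤ 2 ^ m := (Nat.lt_pow_succ_log_self one_lt_two M).le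
  set u := Nat.log 2 (A * p * (d + 1)) + 1 with hudef
  have hu : A * p * (d + 1) < 2 ^ u := Nat.lt_pow_succ_log_self one_lt_two _
  set k := A * p + 1 with hkdef
  set c := radC k u m (d - 1) with hcdef
  set e := 1 + 21 * m * c + 31 * m with hedef
  clear_value A m u
  refine ⟨4 * k * (d + 1) * 4 ^ e, e, fun n F hp hD hx => ?_⟩
  rcases Nat.eq_zero_or_pos n with rfl | hn
  · exact Nat.zero_le _
  have hF : 0 < F.card := by
    obtain ⟨τ, hτ, -⟩ := hp.2 ⟨0, hn⟩
    exact card_pos.2 ⟨τ, hτ⟩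
  obtain ⟨T, hTc, hT⟩ := exists_top (F := F) d
  set b := topBetti F d with hbdef
  set S : Finset (Fin n) := insert ⟨0, hn⟩ (T.biUnion fun t => t.1) with hSdef
  have hSne : S.Nonempty := insert_nonempty _ _
  have hTS : ∀ t ∈ T, t.1 ⊆ S := fun t ht w hw =>
    mem_insert_of_mem (mem_biUnion.2 ⟨t, ht, hw⟩)
  obtain ⟨L, hL0', hL1, hL2⟩ : ∃ L, 1 ≤ L ∧ b + 2 ≤ 2 ^ L ∧ 2 ^ L ≤ 4 * (b + 1) := by
    refine ⟨Nat.log 2 (b + 2) + 1, Nat.succ_pos _, (Nat.lt_pow_succ_log_self one_lt_two _).le, ?_⟩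
    have := Nat.pow_log_le_self 2 (show b + 2 ≠ 0 by omega)
    rw [pow_succ]
    omega
  have hScard : S.card + (d + 1) ≤ (d + 1) * 2 ^ L := by
    have h1 : (T.biUnion fun t => t.1).card ≤ T.card * (d + 1) :=
      card_biUnion_le_card_mul _ _ _ fun t _ => le_of_eq (mem_faces.1 t.2).1
    have h2 : S.card ≤ (T.biUnion fun t => t.1).card + 1 := card_insert_le _ _
    have h3 : (d + 1) * (b + 2) ≤ (d + 1) * 2 ^ L := Nat.mul_le_mul_left _ hL1
    rw [hTc] at h1
    have h4 : (d + 1) * (b + 2) = b * (d + 1) + (d + 1) + (d + 1) := by ring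
    omega
  have hloc : ∀ j, j < d → Loc F S (d - j) (radC k u m j * L) := by
    intro j
    induction j with
    | zero => intro _; simpa [radC] using hT S hTS
    | succ j ih =>
      intro hj
      have h := ih (by omega)
      rw [show d - j = d - (j + 1) + 1 by omega] at h
      exact loc_step' hp hD hε hA hx hF (by omega) hu hM hScard hL0' h
  have h1 : Loc F S 1 (c * L) := by
    have := hloc (d - 1) (by omega)
    rwa [show d - (d - 1) = 1 by omega] at this
  have hb := size_bound hp hD hε hA hx (by omega) hSne h1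
  calc n ≤ 4 * k * (S.card * M ^ (21 * (c * L) + 31)) := hb
    _ ≤ 4 * k * ((d + 1) * (2 ^ L * 2 ^ (m * (21 * (c * L) + 31)))) := by
        refine Nat.mul_le_mul_left _ ?_
        rw [← mul_assoc (d + 1)]
        refine Nat.mul_le_mul (by omega) ?_
        rw [pow_mul]; exact Nat.pow_le_pow_left hM _
    _ ≤ 4 * k * ((d + 1) * (2 ^ L) ^ e) := by
        refine Nat.mul_le_mul_left _ (Nat.mul_le_mul_left _ ?_)
        rw [← pow_add, ← pow_mul]
        refine Nat.pow_le_pow_right two_pos ?_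
        have : m ≤ m * L := Nat.le_mul_of_pos_right m hL0'
        calc L + m * (21 * (c * L) + 31) = L + 21 * m * c * L + 31 * m := by ring
          _ ≤ L + 21 * m * c * L + 31 * (m * L) := by omega
          _ = L * e := by rw [hedef]; ring
    _ ≤ 4 * k * ((d + 1) * (4 * (b + 1)) ^ e) :=
        Nat.mul_le_mul_left _ (Nat.mul_le_mul_left _ (Nat.pow_le_pow_left hL2 _))
    _ = 4 * k * (d + 1) * 4 ^ e * (b + 1) ^ e := by rw [mul_pow]; ring

end Vale.Agent.P067
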